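import Vale.Agent.P227.M.LIN.X162.Cm

/-! # StmtH1, independent version (helper162): algebra of `Lop`, mollification and cut-off -/

open MeasureTheory Filter Topology
open scoped ContDiff NNReal

namespace Vale.Agent.P227.M.X162

variable {n : ℕ}

theorem T.mul {f g : E n → ℝ} (hf : Test f) (hg : ContDiff ℝ (⊤ : ℕ∞) g) : Test (fun x => f x * g x) :=
  ⟨hf.1.mul hg, hf.2.mul_right⟩

theorem T.add {f g : E n → ℝ} (hf : Test f) (hg : Test g) : Test (fun x => f x + g x) :=
  ⟨hf.1.add hg.1, hf.2.add hg.2⟩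

theorem T.sub {f g : E n → ℝ} (hf : Test f) (hg : Test g) : Test (fun x => f x - g x) :=
  ⟨hf.1.sub hg.1, hf.2.sub hg.2⟩

theorem T.pd {f : E n → ℝ} (hf : Test f) (b : Fin n) : Test (pd b f) :=
  ⟨contDiff_pd_top hf.1 b, hf.2.fderiv_apply ℝ (ei b)⟩

theorem T.hess {f : E n → ℝ} (hf : Test f) (i j : Fin n) : Test (fun x => hess f x i j) :=
  T.pd (T.pd hf j) i

theorem T.diff {f : E n → ℝ} (hf : Test f) (x : E n) : DifferentiableAt ℝ f x :=
  hf.1.differentiable (by simp) x

theorem T.cont {f : E n → ℝ} (hf : Test f) : Continuous f := hf.1.continuous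

theorem dmul {f g : E n → ℝ} {x : E n} (hf : DifferentiableAt ℝ f x) (hg : DifferentiableAt ℝ g x) :
    DifferentiableAt ℝ (fun y => f y * g y) x := hf.mul hg

theorem dadd {f g : E n → ℝ} {x : E n} (hf : DifferentiableAt ℝ f x) (hg : DifferentiableAt ℝ g x) :
    DifferentiableAt ℝ (fun y => f y + g y) x := hf.add hg

theorem pd_add' {f g : E n → ℝ} {x : E n} (b : Fin n) (hf : DifferentiableAt ℝ f x) (hg : DifferentiableAt ℝ g x) :
    pd b (fun y => f y + g y) x = pd b f x + pd b g x := by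
  unfold pd
  rw [fderiv_fun_add hf hg]
  rfl

theorem pd_sub' {f g : E n → ℝ} {x : E n} (b : Fin n) (hf : DifferentiableAt ℝ f x) (hg : DifferentiableAt ℝ g x) :
    pd b (fun y => f y - g y) x = pd b f x - pd b g x := by
  unfold pd
  rw [fderiv_fun_sub hf hg]
  rfl

theorem pd_mul' {f g : E n → ℝ} {x : E n} (b : Fin n) (hf : DifferentiableAt ℝ f x) (hg : DifferentiableAt ℝ g x) :
    pd b (fun y => f y * g y) x = pd b f x * g x + f x * pd b g x := by
  unfold pd
  rw [fderiv_fun_mul hf hg]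
  simp only [add_apply, smul_apply, smul_eq_mul]
  ring

theorem pd_sum' {ι : Type*} {s : Finset ι} {f : ι → E n → ℝ} {x : E n} (b : Fin n)
    (hf : ∀ a ∈ s, DifferentiableAt ℝ (f a) x) :
    pd b (fun y => ∑ a ∈ s, f a y) x = ∑ a ∈ s, pd b (f a) x := by
  unfold pd
  rw [fderiv_fun_sum hf]
  simp

theorem pd_coord' (b j : Fin n) (x : E n) : pd b (fun y : E n => y j) x = if j = b then 1 else 0 := by
  unfold pd
  have h : (fun y : E n => y j) = (EuclideanSpace.proj j : E n →L[ℝ] ℝ) := rfl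
  rw [h, ContinuousLinearMap.fderiv]
  simp [ei]

theorem contDiff_coord (j : Fin n) : ContDiff ℝ (⊤ : ℕ∞) (fun y : E n => y j) :=
  (EuclideanSpace.proj j : E n →L[ℝ] ℝ).contDiff

/-! ## mollification -/

section mo

variable {ρ : E n → ℝ} {ε : ℝ}

theorem mo_sum {ι : Type*} (s : Finset ι) (hρ : Continuous ρ) (hc : HasCompactSupport ρ) {f : ι → E n → ℝ}
    (hf : ∀ i ∈ s, Continuous (f i)) (x : E n) :
    Moll.mo ρ (fun y => ∑ i ∈ s, f i y) x = ∑ i ∈ s, Moll.mo ρ (f i) x := by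
  unfold Moll.mo
  rw [← integral_finsetSum s fun i hi => Moll.integrable_mo hρ hc (hf i hi).locallyIntegrable x]
  simp only [smul_eq_mul, Finset.mul_sum]

theorem pd_mo_test (hρ : Continuous ρ) {g : E n → ℝ} (hg : Test g) (b : Fin n) :
    pd b (Moll.mo ρ g) = Moll.mo ρ (pd b g) := by
  funext x
  exact Moll.fderiv_mo' hρ.locallyIntegrable (hg.1.of_le (by simp)) hg.2 x (ei b)

theorem hess_mo_test (hρ : Continuous ρ) {g : E n → ℝ} (hg : Test g) (x : E n) (i j : Fin n) :
    hess (Moll.mo ρ g) x i j = Moll.mo ρ (fun y => hess g y i j) x := by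
  unfold hess
  rw [pd_mo_test hρ hg j]
  have h := congrFun (pd_mo_test hρ (T.pd hg j) i) x
  rw [h]

theorem test_mo (hρ : Moll.IsMol ε ρ) {g : E n → ℝ} (hg : Test g) : Test (Moll.mo ρ g) := by
  refine ⟨Moll.contDiff_mo hρ.contDiff hρ.hcs hg.1.continuous.locallyIntegrable, ?_⟩
  rw [Moll.mo_eq_conv']
  exact HasCompactSupport.convolution _ hρ.hcs hg.2

/-- `L (ρ * g) = ρ * (L g) + commutators` -/
theorem Lop_mo {ψ : E n → ℝ} (hτ : ∀ i j, Continuous fun x => tau ψ x i j) (hρ : Moll.IsMol ε ρ)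
    {g : E n → ℝ} (hg : Test g) (x : E n) :
    Lop ψ (Moll.mo ρ g) x = Moll.mo ρ (Lop ψ g) x
      + (∑ i, ∑ j, cm ρ (fun y => tau ψ y i j) (fun y => hess g y i j) x)
      - ∑ i, cm ρ (fun y => y i) (pd i g) x := by
  have hρc := hρ.contDiff.continuous
  have c1 : ∀ i j, Continuous fun y => tau ψ y i j * hess g y i j := fun i j =>
    (hτ i j).mul (T.cont (T.hess hg i j))
  have c2 : ∀ i, Continuous fun y : E n => y i * pd i g y := fun i =>
    (contDiff_coord i).continuous.mul (T.cont (T.pd hg i))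
  have c3 : ∀ i, Continuous fun y => ∑ j, tau ψ y i j * hess g y i j := fun i =>
    continuous_finsetSum _ fun j _ => c1 i j
  have e1 : Moll.mo ρ (Lop ψ g) x = (∑ i, ∑ j, Moll.mo ρ (fun y => tau ψ y i j * hess g y i j) x)
      - ∑ i, Moll.mo ρ (fun y => y i * pd i g y) x := by
    have e0 : Lop ψ g = fun y => (∑ i, ∑ j, tau ψ y i j * hess g y i j) - ∑ i, y i * pd i g y := rfl
    rw [e0, Moll.mo_sub hρc hρ.hcs (continuous_finsetSum _ fun i _ => c3 i).locallyIntegrable
      (continuous_finsetSum _ fun i _ => c2 i).locallyIntegrable,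
      mo_sum _ hρc hρ.hcs (fun i _ => c3 i), mo_sum _ hρc hρ.hcs (fun i _ => c2 i)]
    congr 1
    refine Finset.sum_congr rfl fun i _ => ?_
    rw [mo_sum _ hρc hρ.hcs (fun j _ => c1 i j)]
  rw [e1]
  unfold Lop cm
  simp only [hess_mo_test hρc hg, pd_mo_test hρc hg, Finset.sum_sub_distrib]
  ring

end mo

/-! ## cut-off -/

/-- `|d| + |∇d| + |D²d|` -/
noncomputable def DD (d : E n → ℝ) (x : E n) : ℝ := |d x| + (∑ a, |pd a d x|) + ∑ a, ∑ b, |hess d x a b|

theorem DD0 (d : E n → ℝ) (x : E n) : |d x| ≤ DD d x := by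
  unfold DD
  have h1 : 0 ≤ ∑ a, |pd a d x| := Finset.sum_nonneg fun _ _ => abs_nonneg _
  have h2 : 0 ≤ ∑ a, ∑ b, |hess d x a b| := Finset.sum_nonneg fun _ _ => Finset.sum_nonneg fun _ _ => abs_nonneg _
  linarith

theorem DD1 (d : E n → ℝ) (x : E n) (a : Fin n) : |pd a d x| ≤ DD d x := by
  unfold DD
  have h1 : |pd a d x| ≤ ∑ a, |pd a d x| :=
    Finset.single_le_sum (f := fun a => |pd a d x|) (fun _ _ => abs_nonneg _) (Finset.mem_univ a)
  have h2 : 0 ≤ ∑ a, ∑ b, |hess d x a b| := Finset.sum_nonneg fun _ _ => Finset.sum_nonneg fun _ _ => abs_nonneg _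
  have h3 := abs_nonneg (d x)
  linarith

theorem DD2 (d : E n → ℝ) (x : E n) (a b : Fin n) : |hess d x a b| ≤ DD d x := by
  unfold DD
  have h1 : 0 ≤ ∑ a, |pd a d x| := Finset.sum_nonneg fun _ _ => abs_nonneg _
  have h2 : |hess d x a b| ≤ ∑ a, ∑ b, |hess d x a b| :=
    (Finset.single_le_sum (f := fun b => |hess d x a b|) (fun _ _ => abs_nonneg _) (Finset.mem_univ b)).trans
      (Finset.single_le_sum (f := fun a => ∑ b, |hess d x a b|)
        (fun _ _ => Finset.sum_nonneg fun _ _ => abs_nonneg _) (Finset.mem_univ a))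
  have h3 := abs_nonneg (d x)
  linarith

theorem DD_nonneg (d : E n → ℝ) (x : E n) : 0 ≤ DD d x := (abs_nonneg _).trans (DD0 d x)

theorem DD_cont {d : E n → ℝ} (hd : Test d) : Continuous (DD d) := by
  unfold DD
  refine ((T.cont hd).abs.add (continuous_finsetSum _ fun a _ => (T.cont (T.pd hd a)).abs)).add
    (continuous_finsetSum _ fun a _ => continuous_finsetSum _ fun b _ => (T.cont (T.hess hd a b)).abs)

theorem DD_zero {d : E n → ℝ} {r : ℝ} (hd : ∀ x, r < ‖x‖ → d x = 0) (x : E n) (hx : r < ‖x‖) : DD d x = 0 := by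
  unfold DD
  have h1 : ∀ a, pd a d x = 0 := fun a => pd_zero_off hd a x hx
  have h2 : ∀ a b, hess d x a b = 0 := fun a b => pd_zero_off (pd_zero_off hd b) a x hx
  simp [h1, h2, hd x hx]

theorem hcs_of_zero {g : E n → ℝ} {r : ℝ} (hg : ∀ x, r < ‖x‖ → g x = 0) : HasCompactSupport g := by
  refine HasCompactSupport.intro (isCompact_closedBall (0 : E n) r) fun x hx => hg x ?_
  simpa using hx

/-- data of a cut-off function -/
structure IsCut (χ : E n → ℝ) (R C : ℝ) : Prop where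
  test : Test χ
  C0 : 0 ≤ C
  le1 : ∀ x, |χ x| ≤ 1
  one : ∀ x, ‖x‖ ≤ R → χ x = 1
  off : ∀ x, 2 * R < ‖x‖ → χ x = 0
  d1 : ∀ x i, |pd i χ x| ≤ C
  d2 : ∀ x i j, |hess χ x i j| ≤ C
  d3 : ∀ x i j k, |pd k (fun z => hess χ z i j) x| ≤ C
  e1 : ∀ x i, ‖x‖ * |pd i χ x| ≤ C
  e2 : ∀ x i j, ‖x‖ * |hess χ x i j| ≤ C

/-- first order coefficient -/
noncomputable def P (χ d : E n → ℝ) (j k : Fin n) (x : E n) : ℝ :=
  hess χ x j k * d x + (pd j χ x * pd k d x + pd k χ x * pd j d x)

noncomputable def Q (χ d : E n → ℝ) (j : Fin n) (x : E n) : ℝ := x j * (pd j χ x * d x)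

section cut

variable {χ d : E n → ℝ} {R C : ℝ}

theorem test_P (h : IsCut χ R C) (hd : Test d) (j k : Fin n) : Test (P χ d j k) := by
  unfold P
  exact T.add (T.mul (T.hess h.test j k) hd.1)
    (T.add (T.mul (T.pd h.test j) (T.pd hd k).1) (T.mul (T.pd h.test k) (T.pd hd j).1))

theorem test_Q (h : IsCut χ R C) (hd : Test d) (j : Fin n) : Test (Q χ d j) := by
  unfold Q
  refine ⟨(contDiff_coord j).mul ((T.pd h.test j).1.mul hd.1), ?_⟩
  exact ((T.pd h.test j).2.mul_right).mul_left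

theorem pd_cut (h : IsCut χ R C) (hd : Test d) (b : Fin n) (x : E n) :
    pd b (fun y => χ y * d y) x = pd b χ x * d x + χ x * pd b d x :=
  pd_mul' b (T.diff h.test x) (T.diff hd x)

theorem hess_cut (h : IsCut χ R C) (hd : Test d) (x : E n) (a b : Fin n) :
    hess (fun y => χ y * d y) x a b = χ x * hess d x a b + P χ d a b x := by
  have e : pd b (fun y => χ y * d y) = fun x => pd b χ x * d x + χ x * pd b d x := by
    funext x
    exact pd_cut h hd b x
  unfold hess
  rw [e, pd_add' a (dmul (T.diff (T.pd h.test b) x) (T.diff hd x)) (dmul (T.diff h.test x) (T.diff (T.pd hd b) x)),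
    pd_mul' a (T.diff (T.pd h.test b) x) (T.diff hd x), pd_mul' a (T.diff h.test x) (T.diff (T.pd hd b) x)]
  unfold P hess
  ring

theorem pd_cut_le (h : IsCut χ R C) (hd : Test d) (b : Fin n) (x : E n) :
    |pd b (fun y => χ y * d y) x| ≤ (C + 1) * DD d x := by
  rw [pd_cut h hd b x]
  have h1 := h.d1 x b
  have h2 := h.le1 x
  have h3 := DD0 d x
  have h4 := DD1 d x b
  calc |pd b χ x * d x + χ x * pd b d x| ≤ |pd b χ x| * |d x| + |χ x| * |pd b d x| := by
        rw [← abs_mul, ← abs_mul]; exact abs_add_le _ _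
    _ ≤ C * DD d x + 1 * DD d x := by
        have := h.C0
        gcongr
    _ = _ := by ring

theorem P_le (h : IsCut χ R C) (j k : Fin n) (x : E n) : |P χ d j k x| ≤ 3 * C * DD d x := by
  unfold P
  have h1 := h.d1 x j
  have h1' := h.d1 x k
  have h2 := h.d2 x j k
  have h3 := DD0 d x
  have h4 := DD1 d x k
  have h4' := DD1 d x j
  have := h.C0
  calc |hess χ x j k * d x + (pd j χ x * pd k d x + pd k χ x * pd j d x)|
      ≤ |hess χ x j k| * |d x| + (|pd j χ x| * |pd k d x| + |pd k χ x| * |pd j d x|) := by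
        rw [← abs_mul, ← abs_mul, ← abs_mul]
        exact (abs_add_le _ _).trans (add_le_add_right (abs_add_le _ _) _)
    _ ≤ C * DD d x + (C * DD d x + C * DD d x) := by gcongr
    _ = _ := by ring

theorem hess_cut_le (h : IsCut χ R C) (hd : Test d) (x : E n) (a b : Fin n) :
    |hess (fun y => χ y * d y) x a b| ≤ (3 * C + 1) * DD d x := by
  rw [hess_cut h hd x a b]
  have h1 := P_le (d := d) h a b x
  have h2 := h.le1 x
  have h3 := DD2 d x a b
  calc |χ x * hess d x a b + P χ d a b x| ≤ |χ x| * |hess d x a b| + |P χ d a b x| := by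
        rw [← abs_mul]; exact abs_add_le _ _
    _ ≤ 1 * DD d x + 3 * C * DD d x := by gcongr
    _ = _ := by ring

theorem pd_P_le (h : IsCut χ R C) (hd : Test d) (j k b : Fin n) (x : E n) :
    |pd b (P χ d j k) x| ≤ 6 * C * DD d x := by
  have e : pd b (P χ d j k) x = (pd b (fun z => hess χ z j k) x * d x + hess χ x j k * pd b d x)
      + ((hess χ x b j * pd k d x + pd j χ x * hess d x b k)
        + (hess χ x b k * pd j d x + pd k χ x * hess d x b j)) := by
    unfold P
    rw [pd_add' b (f := fun x => hess χ x j k * d x) (dmul (f := fun x => hess χ x j k) (T.diff (T.hess h.test j k) x) (T.diff hd x))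
      (dadd (dmul (T.diff (T.pd h.test j) x) (T.diff (T.pd hd k) x))
        (dmul (T.diff (T.pd h.test k) x) (T.diff (T.pd hd j) x))),
      pd_mul' b (f := fun x => hess χ x j k) (T.diff (T.hess h.test j k) x) (T.diff hd x),
      pd_add' b (dmul (T.diff (T.pd h.test j) x) (T.diff (T.pd hd k) x))
        (dmul (T.diff (T.pd h.test k) x) (T.diff (T.pd hd j) x)),
      pd_mul' b (T.diff (T.pd h.test j) x) (T.diff (T.pd hd k) x),
      pd_mul' b (T.diff (T.pd h.test k) x) (T.diff (T.pd hd j) x)]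
    rfl
  rw [e]
  have h1 := h.d3 x j k b
  have h2 := h.d2 x j k
  have h3 := h.d2 x b j
  have h4 := h.d2 x b k
  have h5 := h.d1 x j
  have h6 := h.d1 x k
  have k0 := DD0 d x
  have k1 := DD1 d x b
  have k2 := DD1 d x k
  have k3 := DD1 d x j
  have k4 := DD2 d x b k
  have k5 := DD2 d x b j
  have := h.C0
  have t : ∀ a1 a2 a3 a4 a5 a6 : ℝ, |(a1 + a2) + ((a3 + a4) + (a5 + a6))|
      ≤ (|a1| + |a2|) + ((|a3| + |a4|) + (|a5| + |a6|)) := fun a1 a2 a3 a4 a5 a6 =>
    (abs_add_le _ _).trans (add_le_add (abs_add_le _ _)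
      ((abs_add_le _ _).trans (add_le_add (abs_add_le _ _) (abs_add_le _ _))))
  refine (t _ _ _ _ _ _).trans ?_
  simp only [abs_mul]
  calc _ ≤ (C * DD d x + C * DD d x) + ((C * DD d x + C * DD d x) + (C * DD d x + C * DD d x)) := by gcongr
    _ = _ := by ring

theorem pd_Q_le (h : IsCut χ R C) (hd : Test d) (j b : Fin n) (x : E n) :
    |pd b (Q χ d j) x| ≤ 3 * C * DD d x := by
  have e : pd b (Q χ d j) x = (if j = b then 1 else 0) * (pd j χ x * d x)
      + x j * (hess χ x b j * d x + pd j χ x * pd b d x) := by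
    unfold Q
    rw [pd_mul' b (f := fun x : E n => x j) ((contDiff_coord j).differentiable (by simp) x)
      (dmul (T.diff (T.pd h.test j) x) (T.diff hd x)),
      pd_mul' b (T.diff (T.pd h.test j) x) (T.diff hd x), pd_coord']
    rfl
  rw [e]
  have h1 := h.d1 x j
  have h2 := h.e1 x j
  have h3 := h.e2 x b j
  have hx := abs_coord_le x j
  have k0 := DD0 d x
  have k1 := DD1 d x b
  have hC := h.C0
  have hD := DD_nonneg d x
  have a1 : |(if j = b then (1:ℝ) else 0) * (pd j χ x * d x)| ≤ C * DD d x := by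
    rw [abs_mul, abs_mul]
    have : |(if j = b then (1:ℝ) else 0)| ≤ 1 := by split_ifs <;> simp
    calc |(if j = b then (1:ℝ) else 0)| * (|pd j χ x| * |d x|) ≤ 1 * (C * DD d x) := by gcongr
      _ = _ := by ring
  have a2 : |x j * (hess χ x b j * d x)| ≤ C * DD d x := by
    rw [abs_mul, abs_mul]
    calc |x j| * (|hess χ x b j| * |d x|) ≤ ‖x‖ * (|hess χ x b j| * |d x|) := by gcongr
      _ = (‖x‖ * |hess χ x b j|) * |d x| := by ring
      _ ≤ C * DD d x := by gcongr
  have a3 : |x j * (pd j χ x * pd b d x)| ≤ C * DD d x := by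
    rw [abs_mul, abs_mul]
    calc |x j| * (|pd j χ x| * |pd b d x|) ≤ ‖x‖ * (|pd j χ x| * |pd b d x|) := by gcongr
      _ = (‖x‖ * |pd j χ x|) * |pd b d x| := by ring
      _ ≤ C * DD d x := by gcongr
  rw [mul_add]
  calc _ ≤ |(if j = b then (1:ℝ) else 0) * (pd j χ x * d x)|
        + (|x j * (hess χ x b j * d x)| + |x j * (pd j χ x * pd b d x)|) :=
        (abs_add_le _ _).trans (add_le_add_right (abs_add_le _ _) _)
    _ ≤ C * DD d x + (C * DD d x + C * DD d x) := add_le_add a1 (add_le_add a2 a3)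
    _ = _ := by ring

theorem Lop_cut (ψ : E n → ℝ) (h : IsCut χ R C) (hd : Test d) (x : E n) :
    Lop ψ (fun y => χ y * d y) x = χ x * Lop ψ d x
      + ((∑ j, ∑ k, tau ψ x j k * P χ d j k x) - ∑ j, Q χ d j x) := by
  unfold Lop
  simp only [hess_cut h hd, pd_cut h hd, Q, mul_add, Finset.sum_add_distrib, mul_sub, Finset.mul_sum]
  have e1 : ∀ i j, tau ψ x i j * (χ x * hess d x i j) = χ x * (tau ψ x i j * hess d x i j) := fun i j => by ring
  have e2 : ∀ i, x i * (χ x * pd i d x) = χ x * (x i * pd i d x) := fun i => by ring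
  simp only [e1, e2]
  ring

end cut

end Vale.Agent.P227.M.X162
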