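import Vale.Agent.P227.M.LIN.X162.Wn

/-! # StmtH1, independent version (helper162): the commutator -/

open MeasureTheory Filter Topology
open scoped ContDiff NNReal

namespace Vale.Agent.P227.M.X162

variable {n : ℕ}

/-- commutator of the multiplication by `a` and the mollification -/
noncomputable def cm (ρ a G : E n → ℝ) (x : E n) : ℝ :=
  a x * Moll.mo ρ G x - Moll.mo ρ (fun y => a y * G y) x

theorem aesm_pd (b : Fin n) (g : E n → ℝ) : AEStronglyMeasurable (pd b g) (volume : Measure (E n)) :=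
  (measurable_fderiv_apply_const ℝ g (ei b)).aestronglyMeasurable

theorem diff_mo {ρ G : E n → ℝ} (hρ : ContDiff ℝ ∞ ρ) (hc : HasCompactSupport ρ)
    (hG : LocallyIntegrable G volume) (x : E n) : DifferentiableAt ℝ (Moll.mo ρ G) x :=
  (Moll.contDiff_mo hρ hc hG).differentiable (by simp) x

theorem pd_mo {ρ G : E n → ℝ} (hρ : ContDiff ℝ ∞ ρ) (hc : HasCompactSupport ρ)
    (hG : LocallyIntegrable G volume) (b : Fin n) (x : E n) :
    pd b (Moll.mo ρ G) x = Moll.mo (fun z => fderiv ℝ ρ z (ei b)) G x :=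
  Moll.fderiv_mo hρ hc hG x (ei b)

theorem pd_cm {ρ a G : E n → ℝ} (hρ : ContDiff ℝ ∞ ρ) (hc : HasCompactSupport ρ)
    (ha : Continuous a) (hG : Continuous G) {x : E n} (hd : DifferentiableAt ℝ a x) (b : Fin n) :
    DifferentiableAt ℝ (cm ρ a G) x ∧
    pd b (cm ρ a G) x = pd b a x * Moll.mo ρ G x
      + (a x * Moll.mo (fun z => fderiv ℝ ρ z (ei b)) G x
        - Moll.mo (fun z => fderiv ℝ ρ z (ei b)) (fun y => a y * G y) x) := by
  have l1 : LocallyIntegrable G (volume : Measure (E n)) := hG.locallyIntegrable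
  have l2 : LocallyIntegrable (fun y => a y * G y) (volume : Measure (E n)) := (ha.mul hG).locallyIntegrable
  have d1 := diff_mo hρ hc l1 x
  have d2 := diff_mo hρ hc l2 x
  have h1 : HasFDerivAt (cm ρ a G) (a x • fderiv ℝ (Moll.mo ρ G) x + Moll.mo ρ G x • fderiv ℝ a x
      - fderiv ℝ (Moll.mo ρ (fun y => a y * G y)) x) x :=
    (hd.hasFDerivAt.mul d1.hasFDerivAt).sub d2.hasFDerivAt
  refine ⟨h1.differentiableAt, ?_⟩
  have e1 := pd_mo hρ hc l1 b x
  have e2 := pd_mo hρ hc l2 b x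
  unfold pd at e1 e2 ⊢
  rw [h1.fderiv]
  simp only [sub_apply, add_apply, smul_apply, smul_eq_mul, e1, e2]
  ring

/-- the kernel `ρ + |Dρ| |z|` -/
noncomputable def ker2 (ρ : E n → ℝ) (z : E n) : ℝ := ρ z + ‖fderiv ℝ ρ z‖ * ‖z‖

theorem ker2_cont {ρ : E n → ℝ} (hρ : ContDiff ℝ ∞ ρ) : Continuous (ker2 ρ) := by
  unfold ker2
  have := hρ.continuous_fderiv (by simp)
  have h2 := hρ.continuous
  fun_prop

theorem ker2_hcs {ρ : E n → ℝ} (hc : HasCompactSupport ρ) : HasCompactSupport (ker2 ρ) := by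
  unfold ker2
  exact hc.add ((hc.fderiv ℝ).norm.mul_right)

theorem pd_cm_le {ρ a G : E n → ℝ} (hρ : ContDiff ℝ ∞ ρ) (hc : HasCompactSupport ρ) (h0 : ∀ z, 0 ≤ ρ z)
    (hG : Continuous G) {T : ℝ} (hT : 0 ≤ T) (ha : ∀ x y, |a x - a y| ≤ T * ‖x - y‖)
    {x : E n} (hd : DifferentiableAt ℝ a x) (b : Fin n) :
    |pd b (cm ρ a G) x| ≤ T * Moll.mo (ker2 ρ) (fun y => |G y|) x := by
  have hac : Continuous a := by
    have : LipschitzWith (Real.toNNReal T) a := by
      refine LipschitzWith.of_dist_le_mul fun x y => ?_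
      rw [Real.dist_eq, dist_eq_norm, Real.coe_toNNReal _ hT]
      exact ha x y
    exact this.continuous
  have hdρ : Continuous (fun z => fderiv ℝ ρ z (ei b)) :=
    (hρ.continuous_fderiv (by simp)).clm_apply continuous_const
  have hdc : HasCompactSupport (fun z => fderiv ℝ ρ z (ei b)) := hc.fderiv_apply ℝ (ei b)
  have hpd : |pd b a x| ≤ T := by
    have h1 : ‖fderiv ℝ a x‖ ≤ T := by
      refine norm_fderiv_le_of_lip' ℝ hT (Eventually.of_forall fun y => ?_)
      rw [Real.norm_eq_abs]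
      exact ha y x
    exact (abs_pd_le_norm a x b).trans h1
  have i1 : Integrable (fun y => ρ (x - y) • |G y|) :=
    Moll.integrable_mo hρ.continuous hc hG.abs.locallyIntegrable x
  have i2 : Integrable (fun y => (‖fderiv ℝ ρ (x - y)‖ * ‖x - y‖) • |G y|) :=
    Moll.integrable_mo (ρ := fun z => ‖fderiv ℝ ρ z‖ * ‖z‖)
      (by have := hρ.continuous_fderiv (by simp); fun_prop) ((hc.fderiv ℝ).norm.mul_right)
      hG.abs.locallyIntegrable x
  have i3 : Integrable (fun y => fderiv ℝ ρ (x - y) (ei b) • G y) :=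
    Moll.integrable_mo hdρ hdc hG.locallyIntegrable x
  have i4 : Integrable (fun y => fderiv ℝ ρ (x - y) (ei b) • (a y * G y)) :=
    Moll.integrable_mo hdρ hdc (hac.mul hG).locallyIntegrable x
  rw [(pd_cm hρ hc hac hG hd b).2]
  have e1 : a x * Moll.mo (fun z => fderiv ℝ ρ z (ei b)) G x
        - Moll.mo (fun z => fderiv ℝ ρ z (ei b)) (fun y => a y * G y) x
      = ∫ y, fderiv ℝ ρ (x - y) (ei b) * ((a x - a y) * G y) := by
    unfold Moll.mo
    rw [← integral_const_mul, ← integral_sub (i3.const_mul _) i4]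
    refine integral_congr_ae (Eventually.of_forall fun y => ?_)
    simp only [smul_eq_mul]
    ring
  have h2 : |∫ y, fderiv ℝ ρ (x - y) (ei b) * ((a x - a y) * G y)|
      ≤ T * ∫ y, (‖fderiv ℝ ρ (x - y)‖ * ‖x - y‖) • |G y| := by
    rw [← integral_const_mul, ← Real.norm_eq_abs]
    refine norm_integral_le_of_norm_le (i2.const_mul T) (Eventually.of_forall fun y => ?_)
    rw [norm_mul, norm_mul, Real.norm_eq_abs (a x - a y), Real.norm_eq_abs (G y), smul_eq_mul]
    have h3 : ‖fderiv ℝ ρ (x - y) (ei b)‖ ≤ ‖fderiv ℝ ρ (x - y)‖ := by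
      have := (fderiv ℝ ρ (x - y)).le_opNorm (ei b)
      rwa [norm_ei, mul_one] at this
    have h4 := ha x y
    have h5 : 0 ≤ ‖fderiv ℝ ρ (x - y)‖ := norm_nonneg _
    calc ‖fderiv ℝ ρ (x - y) (ei b)‖ * (|a x - a y| * |G y|)
        ≤ ‖fderiv ℝ ρ (x - y)‖ * ((T * ‖x - y‖) * |G y|) := by gcongr
      _ = _ := by ring
  have h6 : |Moll.mo ρ G x| ≤ ∫ y, ρ (x - y) • |G y| := Moll.norm_mo_le' (G := ℝ) h0 G x
  have e2 : Moll.mo (ker2 ρ) (fun y => |G y|) x
      = (∫ y, ρ (x - y) • |G y|) + ∫ y, (‖fderiv ℝ ρ (x - y)‖ * ‖x - y‖) • |G y| := by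
    rw [← integral_add i1 i2]
    unfold Moll.mo ker2
    refine integral_congr_ae (Eventually.of_forall fun y => ?_)
    simp only [smul_eq_mul]
    ring
  rw [e1, e2]
  calc |pd b a x * Moll.mo ρ G x + ∫ y, fderiv ℝ ρ (x - y) (ei b) * ((a x - a y) * G y)|
      ≤ |pd b a x * Moll.mo ρ G x| + |∫ y, fderiv ℝ ρ (x - y) (ei b) * ((a x - a y) * G y)| := abs_add_le _ _
    _ ≤ T * (∫ y, ρ (x - y) • |G y|) + T * ∫ y, (‖fderiv ℝ ρ (x - y)‖ * ‖x - y‖) • |G y| := by
        refine add_le_add ?_ h2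
        rw [abs_mul]
        exact mul_le_mul hpd h6 (abs_nonneg _) hT
    _ = _ := by ring

/-- the mollification of a Lipschitz function with compact support: the derivative moves over -/
theorem mo_lip {ρ H : E n → ℝ} (hρ : ContDiff ℝ ∞ ρ) (hc : HasCompactSupport ρ) {K : ℝ≥0}
    (hH : LipschitzWith K H) (hHc : HasCompactSupport H) (x : E n) (b : Fin n) :
    Moll.mo (fun z => fderiv ℝ ρ z (ei b)) H x = Moll.mo ρ (pd b H) x := by
  obtain ⟨D, hD⟩ : ∃ D, LipschitzWith D ρ := ContDiff.lipschitzWith_of_hasCompactSupport hc hρ (by simp)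
  have hD' : LipschitzWith D (fun y => ρ (x - y)) := by
    refine LipschitzWith.of_dist_le_mul fun y z => ?_
    refine (hD.dist_le_mul _ _).trans (le_of_eq ?_)
    rw [dist_sub_left]
  have h1 := LipschitzWith.integral_lineDeriv_mul_eq (μ := (volume : Measure (E n))) hD' hH hHc (-ei b)
  have e1 : ∀ y, lineDeriv ℝ (fun y => ρ (x - y)) y (-ei b) = fderiv ℝ ρ (x - y) (ei b) := by
    intro y
    have hd : HasFDerivAt ρ (fderiv ℝ ρ (x - y)) (x - y) :=
      (hρ.differentiable (by simp) _).hasFDerivAt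
    have h2 : HasFDerivAt (fun y => ρ (x - y)) ((fderiv ℝ ρ (x - y)).comp (-(ContinuousLinearMap.id ℝ (E n)))) y := by
      have h3 : HasFDerivAt (fun y : E n => x - y) (-(ContinuousLinearMap.id ℝ (E n))) y :=
        (hasFDerivAt_id y).const_sub x
      exact hd.comp y h3
    rw [h2.differentiableAt.lineDeriv_eq_fderiv, h2.fderiv]
    simp
  rw [neg_neg] at h1
  unfold Moll.mo
  simp only [e1, smul_eq_mul] at h1 ⊢
  rw [h1]
  refine integral_congr_ae ?_
  filter_upwards [hH.ae_differentiableAt (μ := (volume : Measure (E n)))] with y hy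
  rw [hy.lineDeriv_eq_fderiv, mul_comm]
  rfl

theorem mo_zero {ρ g : E n → ℝ} {ε R : ℝ} (hρ : Moll.IsMol ε ρ) (hε : ε ≤ 1)
    (hR : ∀ x, R < ‖x‖ → g x = 0) {x : E n} (hx : R + 1 < ‖x‖) : Moll.mo ρ g x = 0 := by
  unfold Moll.mo
  refine integral_eq_zero_of_ae (Eventually.of_forall fun y => ?_)
  by_cases hy : R < ‖y‖
  · simp [hR y hy]
  · have h3 : ε ≤ ‖x - y‖ := by
      have h5 := norm_add_le (x - y) y
      rw [sub_add_cancel] at h5
      linarith [not_lt.1 hy]
    simp [hρ.supp _ h3]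

theorem pd_zero_off {g : E n → ℝ} {r : ℝ} (hg : ∀ x, r < ‖x‖ → g x = 0) (i : Fin n) :
    ∀ x, r < ‖x‖ → pd i g x = 0 := by
  intro x hx
  have h : g =ᶠ[𝓝 x] fun _ => 0 := by
    filter_upwards [(isOpen_lt continuous_const continuous_norm).mem_nhds hx] with y hy
    exact hg y hy
  unfold pd
  rw [h.fderiv_eq]
  simp

/-- for a fixed test function the gradient of the commutator tends to `0` -/
theorem cm_small {V a G : E n → ℝ} (hV : Continuous V) (hG : Test G) {T : ℝ} (hT : 0 ≤ T)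
    (ha : ∀ x y, |a x - a y| ≤ T * ‖x - y‖) (b : Fin n) {δ : ℝ} (hδ : 0 < δ) :
    ∃ ε₀ > 0, ∀ ε, ε ≤ ε₀ → ∀ ρ, Moll.IsMol ε ρ → B V (fun x => pd b (cm ρ a G) x) δ := by
  have hal : LipschitzWith (Real.toNNReal T) a := by
    refine LipschitzWith.of_dist_le_mul fun x y => ?_
    rw [Real.dist_eq, dist_eq_norm, Real.coe_toNNReal _ hT]
    exact ha x y
  have hac : Continuous a := hal.continuous
  obtain ⟨R, hR⟩ : ∃ R : ℝ, ∀ x, R < ‖x‖ → G x = 0 := by
    obtain ⟨r, hr⟩ := hG.2.isCompact.isBounded.subset_closedBall (0 : E n)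
    refine ⟨r, fun x hx => ?_⟩
    by_contra hne
    have h1 := hr (subset_tsupport _ hne)
    rw [Metric.mem_closedBall, dist_zero_right] at h1
    linarith
  have hGc := hG.1.continuous
  have hpG : Test (pd b G) := ⟨contDiff_pd_top hG.1 b, hG.2.fderiv_apply ℝ (ei b)⟩
  have hpR := pd_zero_off hR b
  have m1 : MemLp G 2 (volume : Measure (E n)) := hGc.memLp_of_hasCompactSupport hG.2
  have m2 : MemLp (pd b G) 2 (volume : Measure (E n)) := hpG.1.continuous.memLp_of_hasCompactSupport hpG.2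
  have hpa : ∀ᵐ x : E n, |pd b a x| ≤ T := by
    filter_upwards [hal.ae_differentiableAt (μ := (volume : Measure (E n)))] with x hx
    have h1 : ‖fderiv ℝ a x‖ ≤ T := by
      refine norm_fderiv_le_of_lip' ℝ hT (Eventually.of_forall fun y => ?_)
      rw [Real.norm_eq_abs]
      exact ha y x
    exact (abs_pd_le_norm a x b).trans h1
  -- the function `∂_b (a G)`
  obtain ⟨D, hGl⟩ : ∃ D, LipschitzWith D G := ContDiff.lipschitzWith_of_hasCompactSupport hG.2 hG.1 (by simp)
  obtain ⟨A0, hA0⟩ : ∃ A : ℝ, ∀ x ∈ Metric.closedBall (0 : E n) (|R| + 1), |a x| ≤ A := by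
    have := (isCompact_closedBall (0 : E n) (|R| + 1)).exists_bound_of_continuousOn
      (f := a) hac.continuousOn
    simpa using this
  obtain ⟨A, hA⟩ : ∃ A : ℝ, A = max A0 1 := ⟨_, rfl⟩
  have hA1 : 0 < A := by rw [hA]; exact lt_max_of_lt_right one_pos
  have hAb : ∀ x, ‖x‖ ≤ |R| + 1 → |a x| ≤ A := fun x hx =>
    (hA0 x (by simpa using hx)).trans (by rw [hA]; exact le_max_left _ _)
  obtain ⟨MG, hMG⟩ := hG.2.exists_bound_of_continuous hGc
  have hMG0 : 0 ≤ MG := (norm_nonneg _).trans (hMG 0)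
  have hH : ∃ K, LipschitzWith K (fun y => a y * G y) := by
    refine ⟨Real.toNNReal (MG * T + A * D), LipschitzWith.of_dist_le_mul fun x y => ?_⟩
    rw [Real.dist_eq, dist_eq_norm, Real.coe_toNNReal _ (by positivity)]
    -- reduce to `G y ≠ 0` or `G x ≠ 0`
    have key : ∀ x y : E n, G y ≠ 0 → |a x * G x - a y * G y| ≤ (MG * T + A * D) * ‖x - y‖ := by
      intro x y hy
      have hyR : ‖y‖ ≤ |R| + 1 := by
        by_contra hcon
        exact hy (hR y (by linarith [le_abs_self R, not_le.1 hcon]))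
      have e : a x * G x - a y * G y = G x * (a x - a y) + a y * (G x - G y) := by ring
      rw [e]
      have h1 : |G x| ≤ MG := hMG x
      have h2 := ha x y
      have h3 := hAb y hyR
      have h4 : |G x - G y| ≤ D * ‖x - y‖ := by
        have := hGl.dist_le_mul x y
        rwa [Real.dist_eq, dist_eq_norm] at this
      calc |G x * (a x - a y) + a y * (G x - G y)| ≤ |G x * (a x - a y)| + |a y * (G x - G y)| := abs_add_le _ _
        _ = |G x| * |a x - a y| + |a y| * |G x - G y| := by rw [abs_mul, abs_mul]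
        _ ≤ MG * (T * ‖x - y‖) + A * (D * ‖x - y‖) := by gcongr
        _ = _ := by ring
    by_cases hy : G y = 0
    · by_cases hx : G x = 0
      · simp only [hx, hy, mul_zero, sub_zero, abs_zero]
        positivity
      · have := key y x hx
        rwa [abs_sub_comm, norm_sub_rev] at this
    · exact key x y hy
  obtain ⟨K, hK⟩ := hH
  have hHc : HasCompactSupport (fun y => a y * G y) := hG.2.mul_left
  have hpH : (pd b (fun y => a y * G y)) =ᵐ[volume] fun x => pd b a x * G x + a x * pd b G x := by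
    filter_upwards [hal.ae_differentiableAt (μ := (volume : Measure (E n)))] with x hx
    have h1 := hx.hasFDerivAt.mul ((hG.1.differentiable (by simp) x).hasFDerivAt)
    have h2 : fderiv ℝ (fun y => a y * G y) x = a x • fderiv ℝ G x + G x • fderiv ℝ a x := h1.fderiv
    unfold pd
    rw [h2]
    simp only [add_apply, smul_apply, smul_eq_mul]
    ring
  have m3 : MemLp (pd b (fun y => a y * G y)) 2 (volume : Measure (E n)) := by
    have h1 : MemLp (fun x => (T * |G x| + A * |pd b G x|)) 2 (volume : Measure (E n)) :=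
      (m1.norm.const_mul T).add (m2.norm.const_mul A)
    refine h1.mono (aesm_pd b _) ?_
    filter_upwards [hpH, hpa] with x hx h3
    rw [hx, Real.norm_eq_abs, Real.norm_eq_abs]
    refine le_trans ?_ (le_abs_self _)
    have h4 : |a x * pd b G x| ≤ A * |pd b G x| := by
      by_cases hx0 : R < ‖x‖
      · rw [hpR x hx0]; simp
      · rw [abs_mul]
        exact mul_le_mul_of_nonneg_right (hAb x (by linarith [le_abs_self R, not_lt.1 hx0])) (abs_nonneg _)
    calc |pd b a x * G x + a x * pd b G x| ≤ |pd b a x * G x| + |a x * pd b G x| := abs_add_le _ _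
      _ ≤ T * |G x| + A * |pd b G x| := by
          rw [abs_mul (pd b a x)]
          exact add_le_add (mul_le_mul_of_nonneg_right h3 (abs_nonneg _)) h4
  have hRH : ∀ x, R < ‖x‖ → pd b (fun y => a y * G y) x = 0 :=
    pd_zero_off (fun x hx => by rw [hR x hx, mul_zero]) b
  obtain ⟨ε1, hε1, k1⟩ := mo_sub_small hV m1 hR (show 0 < δ / (3 * (T + 1)) by positivity)
  obtain ⟨ε2, hε2, k2⟩ := mo_sub_small hV m2 hpR (show 0 < δ / (3 * A) by positivity)
  obtain ⟨ε3, hε3, k3⟩ := mo_sub_small hV m3 hRH (show 0 < δ / 3 by positivity)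
  refine ⟨min (min ε1 ε2) (min ε3 1), by positivity, fun ε hε ρ hρ => ?_⟩
  have b1 := k1 ε (hε.trans ((min_le_left _ _).trans (min_le_left _ _))) ρ hρ
  have b2 := k2 ε (hε.trans ((min_le_left _ _).trans (min_le_right _ _))) ρ hρ
  have b3 := k3 ε (hε.trans ((min_le_right _ _).trans (min_le_left _ _))) ρ hρ
  have hε1' : ε ≤ 1 := hε.trans ((min_le_right _ _).trans (min_le_right _ _))
  have c1 : B V (fun x => pd b a x * (Moll.mo ρ G x - G x)) (T * (δ / (3 * (T + 1)))) := by
    refine b1.dom hV hT ((aesm_pd b a).mul ?_) ?_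
    · exact ((Moll.contDiff_mo hρ.contDiff hρ.hcs hGc.locallyIntegrable).continuous.sub hGc).aestronglyMeasurable
    · filter_upwards [hpa] with x hx
      rw [abs_mul]
      exact mul_le_mul_of_nonneg_right hx (abs_nonneg _)
  have c2 : B V (fun x => a x * (Moll.mo ρ (pd b G) x - pd b G x)) (A * (δ / (3 * A))) := by
    refine b2.dom hV hA1.le (hac.aestronglyMeasurable.mul ?_) (Eventually.of_forall fun x => ?_)
    · exact ((Moll.contDiff_mo hρ.contDiff hρ.hcs hpG.1.continuous.locallyIntegrable).continuous.sub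
        hpG.1.continuous).aestronglyMeasurable
    · by_cases hx : R + 1 < ‖x‖
      · rw [mo_zero hρ hε1' hpR hx, hpR x (by linarith)]
        simp
      · rw [abs_mul]
        exact mul_le_mul_of_nonneg_right (hAb x (by linarith [le_abs_self R, not_lt.1 hx])) (abs_nonneg _)
  have c3 : B V (fun x => (-1) * (Moll.mo ρ (pd b (fun y => a y * G y)) x - pd b (fun y => a y * G y) x))
      (1 * (δ / 3)) := by
    have := b3.const_mul hV ((Moll.contDiff_mo hρ.contDiff hρ.hcs
      (m3.locallyIntegrable (by norm_num))).continuous.aestronglyMeasurable.sub (aesm_pd b _)) (-1)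
    simpa using this
  have c4 := (c1.add c2).add c3
  refine (c4.congr ?_).mono ?_
  · filter_upwards [hpH, hal.ae_differentiableAt (μ := (volume : Measure (E n)))] with x hx hd
    rw [(pd_cm hρ.contDiff hρ.hcs hac hGc hd b).2, mo_lip hρ.contDiff hρ.hcs hK hHc x b,
      mo_lip hρ.contDiff hρ.hcs hGl hG.2 x b, hx]
    ring
  · have e1 : T * (δ / (3 * (T + 1))) ≤ δ / 3 := by
      rw [mul_div_assoc', div_le_div_iff₀ (by positivity) (by norm_num)]
      nlinarith
    have e2 : A * (δ / (3 * A)) = δ / 3 := by field_simp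
    linarith

end Vale.Agent.P227.M.X162
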