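import Vale.Agent.P227.M.LIN.X162.Gb

/-! # StmtH1, independent version (helper162): the gradient of `F - LF - w` -/

open MeasureTheory Filter Topology
open scoped ContDiff NNReal

namespace Vale.Agent.P227.M.X162

variable {n : ℕ}

theorem hess_sub' {f g : E n → ℝ} (hf : Test f) (hg : Test g) (x : E n) (a b : Fin n) :
    hess (fun y => f y - g y) x a b = hess f x a b - hess g x a b := by
  have e : pd b (fun y => f y - g y) = fun y => pd b f y - pd b g y := by
    funext y
    exact pd_sub' b (T.diff hf y) (T.diff hg y)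
  unfold hess
  rw [e]
  exact pd_sub' a (T.diff (T.pd hf b) x) (T.diff (T.pd hg b) x)

theorem hess_add' {f g : E n → ℝ} (hf : Test f) (hg : Test g) (x : E n) (a b : Fin n) :
    hess (fun y => f y + g y) x a b = hess f x a b + hess g x a b := by
  have e : pd b (fun y => f y + g y) = fun y => pd b f y + pd b g y := by
    funext y
    exact pd_add' b (T.diff hf y) (T.diff hg y)
  unfold hess
  rw [e]
  exact pd_add' a (T.diff (T.pd hf b) x) (T.diff (T.pd hg b) x)

theorem cm_add {ρ a g h : E n → ℝ} {ε : ℝ} (hρ : Moll.IsMol ε ρ) (ha : Continuous a) (hg : Continuous g)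
    (hh : Continuous h) (x : E n) : cm ρ a (fun y => g y + h y) x = cm ρ a g x + cm ρ a h x := by
  unfold cm
  have e : (fun y => a y * (g y + h y)) = fun y => a y * g y + a y * h y := by
    funext y
    ring
  have c1 : Continuous fun y => a y * g y := ha.mul hg
  have c2 : Continuous fun y => a y * h y := ha.mul hh
  rw [e, Moll.mo_add hρ.contDiff.continuous hρ.hcs hg.locallyIntegrable hh.locallyIntegrable,
    Moll.mo_add hρ.contDiff.continuous hρ.hcs c1.locallyIntegrable c2.locallyIntegrable]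
  ring

section

variable {V ψ : E n → ℝ} {χ vj d w e : E n → ℝ} {R C ε ε₀ : ℝ} {ρ : E n → ℝ}

/-- `f - L f` for `f = vj + χ d` -/
theorem f_sub_Lop (h : IsCut χ R C) (hvj : Test vj) (hd : Test d) (hvR : ∀ x, R < ‖x‖ → vj x = 0)
    (hwR : ∀ x, R < ‖x‖ → w x = 0)
    (he : ∀ x, (vj x - Lop ψ vj x) + (d x - Lop ψ d x) = w x + e x) (x : E n) :
    (vj x + χ x * d x) - Lop ψ (fun y => vj y + χ y * d y) x
      = w x + χ x * e x - ((∑ j, ∑ k, tau ψ x j k * P χ d j k x) - ∑ j, Q χ d j x) := by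
  have hχd : Test (fun y => χ y * d y) := T.mul h.test hd.1
  have e1 : Lop ψ (fun y => vj y + χ y * d y) x = Lop ψ vj x + Lop ψ (fun y => χ y * d y) x := by
    have k1 : ∀ i j, hess (fun y => vj y + χ y * d y) x i j = hess vj x i j + hess (fun y => χ y * d y) x i j :=
      fun i j => hess_add' hvj hχd x i j
    have k2 : ∀ i, pd i (fun y => vj y + χ y * d y) x = pd i vj x + pd i (fun y => χ y * d y) x :=
      fun i => pd_add' i (T.diff hvj x) (T.diff hχd x)
    unfold Lop
    simp only [k1, k2, mul_add, Finset.sum_add_distrib]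
    ring
  rw [e1, Lop_cut ψ h hd x]
  by_cases hx : ‖x‖ ≤ R
  · rw [h.one x hx]
    have := he x
    linarith
  · have hx' : R < ‖x‖ := not_le.1 hx
    have v0 : vj x = 0 := hvR x hx'
    have v1 : Lop ψ vj x = 0 := by
      unfold Lop
      have k1 : ∀ i j, hess vj x i j = 0 := fun i j => pd_zero_off (pd_zero_off hvR j) i x hx'
      have k2 : ∀ i, pd i vj x = 0 := fun i => pd_zero_off hvR i x hx'
      simp [k1, k2]
    have w0 : w x = 0 := hwR x hx'
    have h1 := he x
    rw [v0, v1, w0] at h1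
    rw [v0, v1, w0]
    have h2 : e x = d x - Lop ψ d x := by linarith
    rw [h2]
    ring

theorem Lop_continuous (hτ : ∀ i j, Continuous fun x => tau ψ x i j) {g : E n → ℝ} (hg : Test g) :
    Continuous (Lop ψ g) := by
  have c1 : ∀ i j, Continuous fun y => tau ψ y i j * hess g y i j := fun i j =>
    (hτ i j).mul (T.cont (T.hess hg i j))
  have c2 : ∀ i, Continuous fun y : E n => y i * pd i g y := fun i =>
    (contDiff_coord i).continuous.mul (T.cont (T.pd hg i))
  exact (continuous_finsetSum _ fun i _ => continuous_finsetSum _ fun j _ => c1 i j).sub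
    (continuous_finsetSum _ fun i _ => c2 i)

/-- the exact formula -/
theorem Phi_eq (hτ : ∀ i j, Continuous fun x => tau ψ x i j) (hρ : Moll.IsMol ε ρ) (h : IsCut χ R C)
    (hvj : Test vj) (hd : Test d) (hw : Test w) (hec : Continuous e) (hvR : ∀ x, R < ‖x‖ → vj x = 0)
    (hwR : ∀ x, R < ‖x‖ → w x = 0)
    (he : ∀ x, (vj x - Lop ψ vj x) + (d x - Lop ψ d x) = w x + e x) (x : E n) :
    Moll.mo ρ (fun y => vj y + χ y * d y) x - Lop ψ (Moll.mo ρ (fun y => vj y + χ y * d y)) x - w x
      = (Moll.mo ρ w x - w x) + Moll.mo ρ (fun y => χ y * e y) x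
        - (∑ j, ∑ k, Moll.mo ρ (fun y => tau ψ y j k * P χ d j k y) x)
        + (∑ j, Moll.mo ρ (Q χ d j) x)
        - (∑ j, ∑ k, cm ρ (fun y => tau ψ y j k) (fun y => hess vj y j k) x)
        - (∑ j, ∑ k, cm ρ (fun y => tau ψ y j k) (fun y => hess (fun y => χ y * d y) y j k) x)
        + (∑ j, cm ρ (fun y => y j) (pd j vj) x)
        + (∑ j, cm ρ (fun y => y j) (pd j (fun y => χ y * d y)) x) := by
  have hχd : Test (fun y => χ y * d y) := T.mul h.test hd.1
  have hf : Test (fun y => vj y + χ y * d y) := T.add hvj hχd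
  have hρc := hρ.contDiff.continuous
  have cP : ∀ j k, Continuous fun y => tau ψ y j k * P χ d j k y := fun j k =>
    (hτ j k).mul (T.cont (test_P h hd j k))
  have cP' : ∀ j, Continuous fun y => ∑ k, tau ψ y j k * P χ d j k y := fun j =>
    continuous_finsetSum _ fun k _ => cP j k
  have cP'' : Continuous fun y => ∑ j, ∑ k, tau ψ y j k * P χ d j k y := continuous_finsetSum _ fun j _ => cP' j
  have cQ : ∀ j, Continuous (Q χ d j) := fun j => T.cont (test_Q h hd j)
  have cQ' : Continuous fun y => ∑ j, Q χ d j y := continuous_finsetSum _ fun j _ => cQ j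
  have cχe : Continuous fun y => χ y * e y := (T.cont h.test).mul hec
  have e1 : Moll.mo ρ (fun y => vj y + χ y * d y) x - Moll.mo ρ (Lop ψ (fun y => vj y + χ y * d y)) x
      = Moll.mo ρ w x + Moll.mo ρ (fun y => χ y * e y) x
        - ((∑ j, ∑ k, Moll.mo ρ (fun y => tau ψ y j k * P χ d j k y) x) - ∑ j, Moll.mo ρ (Q χ d j) x) := by
    rw [← Moll.mo_sub hρc hρ.hcs (T.cont hf).locallyIntegrable (Lop_continuous hτ hf).locallyIntegrable]
    have e0 : (fun y => (vj y + χ y * d y) - Lop ψ (fun y => vj y + χ y * d y) y)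
        = fun y => (w y + χ y * e y) - ((∑ j, ∑ k, tau ψ y j k * P χ d j k y) - ∑ j, Q χ d j y) := by
      funext y
      exact f_sub_Lop h hvj hd hvR hwR he y
    have cW : Continuous fun y => w y + χ y * e y := (T.cont hw).add cχe
    have cS : Continuous fun y => (∑ j, ∑ k, tau ψ y j k * P χ d j k y) - ∑ j, Q χ d j y := cP''.sub cQ'
    rw [e0, Moll.mo_sub hρc hρ.hcs cW.locallyIntegrable cS.locallyIntegrable,
      Moll.mo_add hρc hρ.hcs (T.cont hw).locallyIntegrable cχe.locallyIntegrable,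
      Moll.mo_sub hρc hρ.hcs cP''.locallyIntegrable cQ'.locallyIntegrable,
      mo_sum _ hρc hρ.hcs (fun j _ => cP' j), mo_sum _ hρc hρ.hcs (fun j _ => cQ j)]
    congr 2
    refine Finset.sum_congr rfl fun j _ => ?_
    rw [mo_sum _ hρc hρ.hcs (fun k _ => cP j k)]
  have e2 : ∀ j k, cm ρ (fun y => tau ψ y j k) (fun y => hess (fun y => vj y + χ y * d y) y j k) x
      = cm ρ (fun y => tau ψ y j k) (fun y => hess vj y j k) x
        + cm ρ (fun y => tau ψ y j k) (fun y => hess (fun y => χ y * d y) y j k) x := by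
    intro j k
    have e0 : (fun y => hess (fun y => vj y + χ y * d y) y j k)
        = fun y => hess vj y j k + hess (fun y => χ y * d y) y j k := by
      funext y
      exact hess_add' hvj hχd y j k
    rw [e0]
    exact cm_add hρ (hτ j k) (T.cont (T.hess hvj j k)) (T.cont (T.hess hχd j k)) x
  have e3 : ∀ j, cm ρ (fun y => y j) (pd j (fun y => vj y + χ y * d y)) x
      = cm ρ (fun y => y j) (pd j vj) x + cm ρ (fun y => y j) (pd j (fun y => χ y * d y)) x := by
    intro j
    have e0 : pd j (fun y => vj y + χ y * d y) = fun y => pd j vj y + pd j (fun y => χ y * d y) y := by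
      funext y
      exact pd_add' j (T.diff hvj y) (T.diff hχd y)
    rw [e0]
    exact cm_add hρ (contDiff_coord j).continuous (T.cont (T.pd hvj j)) (T.cont (T.pd hχd j)) x
  rw [Lop_mo hτ hρ hf]
  simp only [e2, e3, Finset.sum_add_distrib]
  linarith

theorem coord_lip (j : Fin n) (x y : E n) : |x j - y j| ≤ 1 * ‖x - y‖ := by
  rw [one_mul]
  exact abs_coord_le (x - y) j

theorem test_lip {g : E n → ℝ} (hg : Test g) : ∃ L, LipschitzWith L g :=
  ContDiff.lipschitzWith_of_hasCompactSupport hg.2 hg.1 (by simp)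

theorem cut_zero_off (h : IsCut χ R C) (x : E n) (hx : 2 * R < ‖x‖) : χ x * d x = 0 := by
  rw [h.off x hx, zero_mul]

theorem P_zero_off (h : IsCut χ R C) (j k : Fin n) (x : E n) (hx : 2 * R < ‖x‖) : P χ d j k x = 0 := by
  unfold P
  have h1 : ∀ i, pd i χ x = 0 := fun i => pd_zero_off h.off i x hx
  have h2 : hess χ x j k = 0 := pd_zero_off (pd_zero_off h.off k) j x hx
  simp [h1, h2]

theorem Q_zero_off (h : IsCut χ R C) (j : Fin n) (x : E n) (hx : 2 * R < ‖x‖) : Q χ d j x = 0 := by
  unfold Q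
  rw [pd_zero_off h.off j x hx]
  simp

theorem dom_DD (hV : Continuous V) {K : ℝ} (hDD : B V (DD d) K) {g : E n → ℝ} (hg : Continuous g) {c : ℝ}
    (hc : 0 ≤ c) (hle : ∀ x, |g x| ≤ c * DD d x) : B V g (c * K) :=
  hDD.dom hV hc hg.aestronglyMeasurable (Eventually.of_forall fun x => by
    rw [abs_of_nonneg (DD_nonneg d x)]; exact hle x)

/-- the gradient of `F - LF - w` -/
theorem Phi_GB (hV : Continuous V) {T : ℝ} (hT : 0 ≤ T)
    (hτl : ∀ j k, ∀ x y, |tau ψ x j k - tau ψ y j k| ≤ T * ‖x - y‖) (hτb : ∀ j k x, |tau ψ x j k| ≤ T)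
    (hτ : ∀ i j, Continuous fun x => tau ψ x i j) (hρ : Moll.IsMol ε ρ) (hK : KP V (2 * R) ε₀) (hεε : ε < ε₀)
    (h : IsCut χ R C)
    (hvj : Test vj) (hd : Test d) (hw : Test w) (hec : Continuous e) (hvR : ∀ x, R < ‖x‖ → vj x = 0)
    (hwR : ∀ x, R < ‖x‖ → w x = 0)
    (he : ∀ x, (vj x - Lop ψ vj x) + (d x - Lop ψ d x) = w x + e x) (b : Fin n) {η η' K : ℝ}
    (b1 : B V (fun x => Moll.mo ρ (pd b w) x - pd b w x) η)
    (b2 : B V e η')
    (b3 : B V (DD d) K)
    (b4 : ∀ j k, GB V b (cm ρ (fun y => tau ψ y j k) (fun y => hess vj y j k)) η)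
    (b5 : ∀ j, GB V b (cm ρ (fun y => y j) (pd j vj)) η) :
    GB V b (fun x => Moll.mo ρ (fun y => vj y + χ y * d y) x
        - Lop ψ (Moll.mo ρ (fun y => vj y + χ y * d y)) x - w x)
      (η + 2 * (∫ z, ‖fderiv ℝ ρ z‖) * η' + (n : ℝ) * (n * (2 * (T * (3 * C * K) + T * (6 * C * K))))
        + (n : ℝ) * (2 * (3 * C * K)) + (n : ℝ) * (n * η)
        + (n : ℝ) * (n * (2 * (∫ z, ker2 ρ z) * (T * ((3 * C + 1) * K)))) + (n : ℝ) * η
        + (n : ℝ) * (2 * (∫ z, ker2 ρ z) * (1 * ((C + 1) * K)))) := by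
  have hχd : Test (fun y => χ y * d y) := X162.T.mul h.test hd.1
  have hC := h.C0
  have hρc := hρ.contDiff.continuous
  have e0 : (fun x => Moll.mo ρ (fun y => vj y + χ y * d y) x
        - Lop ψ (Moll.mo ρ (fun y => vj y + χ y * d y)) x - w x) = fun x =>
        (Moll.mo ρ w x - w x) + Moll.mo ρ (fun y => χ y * e y) x
        - (∑ j, ∑ k, Moll.mo ρ (fun y => tau ψ y j k * P χ d j k y) x)
        + (∑ j, Moll.mo ρ (Q χ d j) x)
        - (∑ j, ∑ k, cm ρ (fun y => tau ψ y j k) (fun y => hess vj y j k) x)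
        - (∑ j, ∑ k, cm ρ (fun y => tau ψ y j k) (fun y => hess (fun y => χ y * d y) y j k) x)
        + (∑ j, cm ρ (fun y => y j) (pd j vj) x)
        + (∑ j, cm ρ (fun y => y j) (pd j (fun y => χ y * d y)) x) := by
    funext x
    exact Phi_eq hτ hρ h hvj hd hw hec hvR hwR he x
  rw [e0]
  have hn : ∀ c : ℝ, ∑ _j : Fin n, c = n * c := fun c => by simp
  have g1 : GB V b (fun x => Moll.mo ρ w x - w x) η := by
    refine ⟨Eventually.of_forall fun x => (diff_mo hρ.contDiff hρ.hcs
      (X162.T.cont hw).locallyIntegrable x).sub (X162.T.diff hw x), b1.congr (Eventually.of_forall fun x => ?_)⟩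
    have := pd_sub' b (diff_mo hρ.contDiff hρ.hcs (X162.T.cont hw).locallyIntegrable x) (X162.T.diff hw x)
    simp only [this, pd_mo_test hρc hw b]
  have g2 : GB V b (Moll.mo ρ (fun y => χ y * e y)) (2 * (∫ z, ‖fderiv ℝ ρ z‖) * η') := by
    have cχe : Continuous fun y => χ y * e y := (X162.T.cont h.test).mul hec
    refine gb_mo_raw hK hρ hεε b cχe h.test.2.mul_right
      (fun x hx => by rw [h.off x hx, zero_mul]) ?_
    have := b2.dom hV zero_le_one (g := fun y => χ y * e y)
      ((X162.T.cont h.test).mul hec).aestronglyMeasurable (Eventually.of_forall fun x => by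
        rw [abs_mul]
        exact mul_le_mul_of_nonneg_right (h.le1 x) (abs_nonneg _))
    rwa [one_mul] at this
  have g3 : GB V b (fun x => ∑ j, ∑ k, Moll.mo ρ (fun y => tau ψ y j k * P χ d j k y) x)
      ((n : ℝ) * (n * (2 * (T * (3 * C * K) + T * (6 * C * K))))) := by
    have := GB.sum (V := V) (b := b) Finset.univ fun j _ => GB.sum (V := V) (b := b) Finset.univ fun k _ =>
      gb_mo_tau hV hK hρ hεε b hT (hτl j k) (hτb j k) (test_P h hd j k) (P_zero_off h j k)
        (dom_DD hV b3 (X162.T.cont (test_P h hd j k)) (by positivity) (P_le h j k))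
        (dom_DD hV b3 (X162.T.cont (X162.T.pd (test_P h hd j k) b)) (by positivity) (pd_P_le h hd j k b))
    rw [hn, hn] at this
    exact this
  have g4 : GB V b (fun x => ∑ j, Moll.mo ρ (Q χ d j) x) ((n : ℝ) * (2 * (3 * C * K))) := by
    have := GB.sum (V := V) (b := b) (A := fun j => Moll.mo ρ (Q χ d j)) (K := fun _ => 2 * (3 * C * K))
      Finset.univ fun j _ => by
        obtain ⟨L, hL⟩ := test_lip (test_Q h hd j)
        exact gb_mo hK hρ hεε hL (test_Q h hd j).2 b (X162.T.cont (X162.T.pd (test_Q h hd j) b))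
          (X162.T.pd (test_Q h hd j) b).2 (pd_zero_off (Q_zero_off h j) b)
          (dom_DD hV b3 (X162.T.cont (X162.T.pd (test_Q h hd j) b)) (by positivity) (pd_Q_le h hd j b))
          (Eventually.of_forall fun x => le_rfl)
    rw [hn] at this
    exact this
  have g5 : GB V b (fun x => ∑ j, ∑ k, cm ρ (fun y => tau ψ y j k) (fun y => hess vj y j k) x)
      ((n : ℝ) * (n * η)) := by
    have := GB.sum (V := V) (b := b) Finset.univ fun j _ => GB.sum (V := V) (b := b) Finset.univ fun k _ =>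
      b4 j k
    rw [hn, hn] at this
    exact this
  have g6 : GB V b (fun x => ∑ j, ∑ k, cm ρ (fun y => tau ψ y j k) (fun y => hess (fun y => χ y * d y) y j k) x)
      ((n : ℝ) * (n * (2 * (∫ z, ker2 ρ z) * (T * ((3 * C + 1) * K))))) := by
    have := GB.sum (V := V) (b := b) Finset.univ fun j _ => GB.sum (V := V) (b := b) Finset.univ fun k _ =>
      gb_cm hV hK hρ hεε b hT (hτl j k) (X162.T.cont (X162.T.hess hχd j k)) (X162.T.hess hχd j k).2
        (pd_zero_off (pd_zero_off (cut_zero_off h) k) j)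
        (dom_DD hV b3 (X162.T.cont (X162.T.hess hχd j k)) (by positivity) (fun x => hess_cut_le h hd x j k))
    rw [hn, hn] at this
    exact this
  have g7 : GB V b (fun x => ∑ j, cm ρ (fun y => y j) (pd j vj) x) ((n : ℝ) * η) := by
    have := GB.sum (V := V) (b := b) Finset.univ fun j _ => b5 j
    rw [hn] at this
    exact this
  have g8 : GB V b (fun x => ∑ j, cm ρ (fun y => y j) (pd j (fun y => χ y * d y)) x)
      ((n : ℝ) * (2 * (∫ z, ker2 ρ z) * (1 * ((C + 1) * K)))) := by
    have := GB.sum (V := V) (b := b) Finset.univ fun j _ =>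
      gb_cm hV hK hρ hεε b zero_le_one (coord_lip j) (X162.T.cont (X162.T.pd hχd j)) (X162.T.pd hχd j).2
        (pd_zero_off (cut_zero_off h) j)
        (dom_DD hV b3 (X162.T.cont (X162.T.pd hχd j)) (by positivity) (pd_cut_le h hd j))
    rw [hn] at this
    exact this
  exact (((((((g1.add g2).sub g3).add g4).sub g5).sub g6).add g7).add g8)

end

/-- `∂_b (L F)` -/
theorem Lop_pd {ψ F : E n → ℝ} (hF : Test F) {x : E n} (hd : ∀ j k, DifferentiableAt ℝ (fun y => tau ψ y j k) x)
    (b : Fin n) : DifferentiableAt ℝ (Lop ψ F) x ∧ Lop ψ (pd b F) x = pd b (Lop ψ F) x + pd b F x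
      - ∑ j, ∑ k, pd b (fun y => tau ψ y j k) x * hess F x j k := by
  have dh : ∀ j k, DifferentiableAt ℝ (fun y => hess F y j k) x := fun j k => T.diff (T.hess hF j k) x
  have dx : ∀ j : Fin n, DifferentiableAt ℝ (fun y : E n => y j) x := fun j =>
    (contDiff_coord j).differentiable (by simp) x
  have d1 : ∀ j k, DifferentiableAt ℝ (fun y => tau ψ y j k * hess F y j k) x := fun j k => dmul (hd j k) (dh j k)
  have d2 : ∀ j, DifferentiableAt ℝ (fun y => ∑ k, tau ψ y j k * hess F y j k) x := fun j =>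
    DifferentiableAt.fun_sum fun k _ => d1 j k
  have d3 : DifferentiableAt ℝ (fun y => ∑ j, ∑ k, tau ψ y j k * hess F y j k) x :=
    DifferentiableAt.fun_sum fun j _ => d2 j
  have d4 : ∀ j, DifferentiableAt ℝ (fun y : E n => y j * pd j F y) x := fun j =>
    dmul (dx j) (T.diff (T.pd hF j) x)
  have d5 : DifferentiableAt ℝ (fun y : E n => ∑ j, y j * pd j F y) x := DifferentiableAt.fun_sum fun j _ => d4 j
  have e0 : Lop ψ F = fun y => (∑ j, ∑ k, tau ψ y j k * hess F y j k) - ∑ j, y j * pd j F y := rfl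
  refine ⟨d3.sub d5, ?_⟩
  have e1 : pd b (Lop ψ F) x = (∑ j, ∑ k, (pd b (fun y => tau ψ y j k) x * hess F x j k
      + tau ψ x j k * pd b (fun y => hess F y j k) x))
      - ∑ j, ((if j = b then 1 else 0) * pd j F x + x j * pd b (pd j F) x) := by
    rw [e0, pd_sub' b d3 d5, pd_sum' b (fun j _ => d2 j), pd_sum' b (fun j _ => d4 j)]
    congr 1
    · refine Finset.sum_congr rfl fun j _ => ?_
      rw [pd_sum' b (fun k _ => d1 j k)]
      refine Finset.sum_congr rfl fun k _ => ?_
      exact pd_mul' b (hd j k) (dh j k)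
    · refine Finset.sum_congr rfl fun j _ => ?_
      rw [pd_mul' b (dx j) (T.diff (T.pd hF j) x), pd_coord']
  have c2 : ∀ i, ContDiff ℝ 2 (pd i F) := fun i => by exact_mod_cast contDiff_infty.1 (T.pd hF i).1 2
  have c2' : ContDiff ℝ 2 F := by exact_mod_cast contDiff_infty.1 hF.1 2
  have sw : ∀ j, pd b (pd j F) = pd j (pd b F) := fun j => by
    funext y
    exact hess_symm c2' y b j
  have sw3 : ∀ j k, pd b (fun y => hess F y j k) x = hess (pd b F) x j k := by
    intro j k
    have h1 : pd b (fun y => hess F y j k) x = hess (pd k F) x b j := rfl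
    rw [h1, hess_symm (c2 k) x b j]
    unfold hess
    rw [sw k]
  rw [e1]
  unfold Lop
  simp only [sw3, Finset.sum_add_distrib, sw]
  have e3 : ∑ j, (if j = b then (1:ℝ) else 0) * pd j F x = pd b F x := by
    simp
  rw [e3]
  ring

end Vale.Agent.P227.M.X162
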