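import Vale.Agent.P227.M.LIN.X162.Alg

/-! # StmtH1, independent version (helper162): bounds of gradients -/

open MeasureTheory Filter Topology
open scoped ContDiff NNReal

namespace Vale.Agent.P227.M.X162

variable {n : ℕ}

/-- `A` is a.e. differentiable and `∂_b A` has weighted norm `≤ K` -/
structure GB (V : E n → ℝ) (b : Fin n) (A : E n → ℝ) (K : ℝ) : Prop where
  d : ∀ᵐ x, DifferentiableAt ℝ A x
  b : B V (pd b A) K

theorem GB.add {V : E n → ℝ} {b : Fin n} {A A' : E n → ℝ} {K K' : ℝ} (h : GB V b A K) (h' : GB V b A' K') :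
    GB V b (fun x => A x + A' x) (K + K') := by
  refine ⟨by filter_upwards [h.d, h'.d] with x hx hx' using hx.add hx', (h.b.add h'.b).congr ?_⟩
  filter_upwards [h.d, h'.d] with x hx hx'
  exact (pd_add' b hx hx').symm

theorem B.neg {V g : E n → ℝ} {K : ℝ} (h : B V g K) : B V (fun x => - g x) K := by
  have e : wt V (fun x => - g x) = - wt V g := by
    funext x
    simp [wt]
  exact ⟨e ▸ h.mem.neg, by rw [e, eLpNorm_neg]; exact h.le⟩

theorem GB.neg {V : E n → ℝ} {b : Fin n} {A : E n → ℝ} {K : ℝ} (h : GB V b A K) :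
    GB V b (fun x => - A x) K := by
  refine ⟨by filter_upwards [h.d] with x hx using hx.neg, h.b.neg.congr (Eventually.of_forall fun x => ?_)⟩
  unfold pd
  rw [fderiv_fun_neg]
  rfl

theorem GB.sub {V : E n → ℝ} {b : Fin n} {A A' : E n → ℝ} {K K' : ℝ} (h : GB V b A K) (h' : GB V b A' K') :
    GB V b (fun x => A x - A' x) (K + K') := by
  have := h.add h'.neg
  simpa [sub_eq_add_neg] using this

theorem GB.sum {ι : Type*} {V : E n → ℝ} {b : Fin n} {A : ι → E n → ℝ} {K : ι → ℝ} (s : Finset ι)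
    (h : ∀ i ∈ s, GB V b (A i) (K i)) : GB V b (fun x => ∑ i ∈ s, A i x) (∑ i ∈ s, K i) := by
  classical
  induction s using Finset.induction_on with
  | empty =>
    simp only [Finset.sum_empty]
    refine ⟨Eventually.of_forall fun x => differentiableAt_const _, ?_⟩
    have : pd b (fun _ : E n => (0:ℝ)) = fun _ => 0 := by
      funext x
      simp [pd]
    rw [this]
    exact B.zero V
  | insert a s ha ih =>
    simp only [Finset.sum_insert ha]
    exact (h a (Finset.mem_insert_self _ _)).add (ih fun i hi => h i (Finset.mem_insert_of_mem hi))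

theorem GB.mono {V : E n → ℝ} {b : Fin n} {A : E n → ℝ} {K K' : ℝ} (h : GB V b A K) (hK : K ≤ K') :
    GB V b A K' := ⟨h.d, h.b.mono hK⟩

/-- the kernel property (radius `R0`) of a mollifier -/
def KP (V : E n → ℝ) (R0 ε₀ : ℝ) : Prop :=
  ∀ κ : E n → ℝ, Continuous κ → HasCompactSupport κ → (∀ z, 0 ≤ κ z) →
      (∀ z, ε₀ ≤ ‖z‖ → κ z = 0) → ∀ g : E n → ℝ, Continuous g → HasCompactSupport g →
      (∀ x, R0 < ‖x‖ → g x = 0) → ∀ w : E n → ℝ, AEStronglyMeasurable w (volume : Measure (E n)) →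
      (∀ᵐ x, |w x| ≤ Moll.mo κ (fun y => |g y|) x) → ∀ K, B V g K →
      B V w (2 * (∫ z, κ z) * K)

section

variable {V : E n → ℝ} {R0 ε₀ ε : ℝ} {ρ : E n → ℝ}

theorem fderiv_supp (hρ : Moll.IsMol ε ρ) (hεε : ε < ε₀) (z : E n) (hz : ε₀ ≤ ‖z‖) : fderiv ℝ ρ z = 0 := by
  have h : ρ =ᶠ[𝓝 z] fun _ => 0 := by
    filter_upwards [(isOpen_lt continuous_const continuous_norm).mem_nhds (show ε < ‖z‖ by linarith)] with y hy
    exact hρ.supp y (le_of_lt hy)
  rw [h.fderiv_eq]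
  simp

/-- mollification of a continuous function -/
theorem B_mo (hK : KP V R0 ε₀) (hρ : Moll.IsMol ε ρ) (hεε : ε < ε₀) {g : E n → ℝ} (hg : Continuous g)
    (hgc : HasCompactSupport g) (hg0 : ∀ x, R0 < ‖x‖ → g x = 0) {K : ℝ} (hB : B V g K) :
    B V (Moll.mo ρ g) (2 * K) := by
  have h := hK ρ hρ.contDiff.continuous hρ.hcs hρ.nonneg (fun z hz => hρ.supp z (by linarith)) g hg hgc hg0
    (Moll.mo ρ g) (Moll.contDiff_mo hρ.contDiff hρ.hcs hg.locallyIntegrable).continuous.aestronglyMeasurable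
    (Eventually.of_forall fun x => Moll.norm_mo_le' (G := ℝ) hρ.nonneg g x) K hB
  rw [hρ.one] at h
  exact h.mono (by linarith)

/-- `∂_b` of the mollification of a Lipschitz function -/
theorem gb_mo (hK : KP V R0 ε₀) (hρ : Moll.IsMol ε ρ) (hεε : ε < ε₀) {H : E n → ℝ} {L : ℝ≥0}
    (hH : LipschitzWith L H) (hHc : HasCompactSupport H) (b : Fin n) {g : E n → ℝ} (hg : Continuous g)
    (hgc : HasCompactSupport g) (hg0 : ∀ x, R0 < ‖x‖ → g x = 0) {K : ℝ} (hB : B V g K)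
    (hle : ∀ᵐ x, |pd b H x| ≤ |g x|) : GB V b (Moll.mo ρ H) (2 * K) := by
  refine ⟨Eventually.of_forall fun x => diff_mo hρ.contDiff hρ.hcs hH.continuous.locallyIntegrable x, ?_⟩
  have h := hK ρ hρ.contDiff.continuous hρ.hcs hρ.nonneg (fun z hz => hρ.supp z (by linarith)) g hg hgc hg0
    (pd b (Moll.mo ρ H)) (aesm_pd b _)
    (Eventually.of_forall fun x => ?_) K hB
  · rw [hρ.one] at h
    exact h.mono (by linarith)
  · rw [pd_mo hρ.contDiff hρ.hcs hH.continuous.locallyIntegrable b x, mo_lip hρ.contDiff hρ.hcs hH hHc x b,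
      ← Real.norm_eq_abs]
    unfold Moll.mo
    refine norm_integral_le_of_norm_le
      (Moll.integrable_mo hρ.contDiff.continuous hρ.hcs hg.abs.locallyIntegrable x) ?_
    filter_upwards [hle] with y hy
    rw [norm_smul, Real.norm_of_nonneg (hρ.nonneg _), smul_eq_mul, Real.norm_eq_abs]
    exact mul_le_mul_of_nonneg_left hy (hρ.nonneg _)

/-- `∂_b` of the mollification, fixed mollifier -/
theorem gb_mo_raw (hK : KP V R0 ε₀) (hρ : Moll.IsMol ε ρ) (hεε : ε < ε₀) (b : Fin n) {g : E n → ℝ}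
    (hg : Continuous g) (hgc : HasCompactSupport g) (hg0 : ∀ x, R0 < ‖x‖ → g x = 0) {K : ℝ} (hB : B V g K) :
    GB V b (Moll.mo ρ g) (2 * (∫ z, ‖fderiv ℝ ρ z‖) * K) := by
  refine ⟨Eventually.of_forall fun x => diff_mo hρ.contDiff hρ.hcs hg.locallyIntegrable x, ?_⟩
  have hc : Continuous fun z => ‖fderiv ℝ ρ z‖ := (hρ.contDiff.continuous_fderiv (by simp)).norm
  have hcs : HasCompactSupport fun z => ‖fderiv ℝ ρ z‖ := (hρ.hcs.fderiv ℝ).norm
  refine hK (fun z => ‖fderiv ℝ ρ z‖) hc hcs (fun z => norm_nonneg _)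
    (fun z hz => by simp [fderiv_supp hρ hεε z hz]) g hg hgc hg0
    (pd b (Moll.mo ρ g)) (aesm_pd b _)
    (Eventually.of_forall fun x => ?_) K hB
  rw [pd_mo hρ.contDiff hρ.hcs hg.locallyIntegrable b x, ← Real.norm_eq_abs]
  unfold Moll.mo
  refine norm_integral_le_of_norm_le (Moll.integrable_mo hc hcs hg.abs.locallyIntegrable x)
    (Eventually.of_forall fun y => ?_)
  rw [norm_smul, smul_eq_mul, Real.norm_eq_abs (g y)]
  refine mul_le_mul_of_nonneg_right ?_ (abs_nonneg _)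
  have := (fderiv ℝ ρ (x - y)).le_opNorm (ei b)
  rwa [norm_ei, mul_one] at this

/-- the commutator -/
theorem gb_cm (hV : Continuous V) (hK : KP V R0 ε₀) (hρ : Moll.IsMol ε ρ) (hεε : ε < ε₀) (b : Fin n)
    {a : E n → ℝ} {T : ℝ} (hT : 0 ≤ T) (ha : ∀ x y, |a x - a y| ≤ T * ‖x - y‖) {g : E n → ℝ}
    (hg : Continuous g) (hgc : HasCompactSupport g) (hg0 : ∀ x, R0 < ‖x‖ → g x = 0) {K : ℝ} (hB : B V g K) :
    GB V b (cm ρ a g) (2 * (∫ z, ker2 ρ z) * (T * K)) := by
  have hal : LipschitzWith (Real.toNNReal T) a := by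
    refine LipschitzWith.of_dist_le_mul fun x y => ?_
    rw [Real.dist_eq, dist_eq_norm, Real.coe_toNNReal _ hT]
    exact ha x y
  have hd := hal.ae_differentiableAt (μ := (volume : Measure (E n)))
  refine ⟨by filter_upwards [hd] with x hx using (pd_cm hρ.contDiff hρ.hcs hal.continuous hg hx b).1, ?_⟩
  have hB' : B V (fun x => T * g x) (|T| * K) := hB.const_mul hV hg.aestronglyMeasurable T
  rw [abs_of_nonneg hT] at hB'
  refine hK (ker2 ρ) (ker2_cont hρ.contDiff) (ker2_hcs hρ.hcs)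
    (fun z => add_nonneg (hρ.nonneg z) (mul_nonneg (norm_nonneg _) (norm_nonneg _)))
    (fun z hz => by
      unfold ker2
      rw [fderiv_supp hρ hεε z hz, hρ.supp z (by linarith)]
      simp) (fun x => T * g x) (by fun_prop) hgc.mul_left (fun x hx => by rw [hg0 x hx, mul_zero])
    (pd b (cm ρ a g)) (aesm_pd b _) ?_ (T * K) hB'
  filter_upwards [hd] with x hx
  refine (pd_cm_le hρ.contDiff hρ.hcs hρ.nonneg hg hT ha hx b).trans (le_of_eq ?_)
  unfold Moll.mo
  rw [← integral_const_mul]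
  refine integral_congr_ae (Eventually.of_forall fun y => ?_)
  simp only [smul_eq_mul, abs_mul, abs_of_nonneg hT]
  ring

/-- Lipschitz times test -/
theorem lip_mul {a G : E n → ℝ} (hG : Test G) {T : ℝ} (hT : 0 ≤ T)
    (ha : ∀ x y, |a x - a y| ≤ T * ‖x - y‖) (hab : ∀ x, |a x| ≤ T) :
    ∃ K, LipschitzWith K (fun y => a y * G y) := by
  obtain ⟨D, hGl⟩ : ∃ D, LipschitzWith D G := ContDiff.lipschitzWith_of_hasCompactSupport hG.2 hG.1 (by simp)
  obtain ⟨MG, hMG⟩ := hG.2.exists_bound_of_continuous hG.1.continuous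
  have hMG0 : 0 ≤ MG := (norm_nonneg _).trans (hMG 0)
  refine ⟨Real.toNNReal (MG * T + T * D), LipschitzWith.of_dist_le_mul fun x y => ?_⟩
  rw [Real.dist_eq, dist_eq_norm, Real.coe_toNNReal _ (by positivity)]
  have e : a x * G x - a y * G y = G x * (a x - a y) + a y * (G x - G y) := by ring
  rw [e]
  have h1 : |G x| ≤ MG := hMG x
  have h2 := ha x y
  have h3 := hab y
  have h4 : |G x - G y| ≤ D * ‖x - y‖ := by
    have := hGl.dist_le_mul x y
    rwa [Real.dist_eq, dist_eq_norm] at this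
  calc |G x * (a x - a y) + a y * (G x - G y)| ≤ |G x * (a x - a y)| + |a y * (G x - G y)| := abs_add_le _ _
    _ = |G x| * |a x - a y| + |a y| * |G x - G y| := by rw [abs_mul, abs_mul]
    _ ≤ MG * (T * ‖x - y‖) + T * (D * ‖x - y‖) := by gcongr
    _ = _ := by ring

/-- `∂_b` of the mollification of `τ P` -/
theorem gb_mo_tau (hV : Continuous V) (hK : KP V R0 ε₀) (hρ : Moll.IsMol ε ρ) (hεε : ε < ε₀) (b : Fin n)
    {a p : E n → ℝ} {T : ℝ} (hT : 0 ≤ T) (ha : ∀ x y, |a x - a y| ≤ T * ‖x - y‖) (hab : ∀ x, |a x| ≤ T)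
    (hp : Test p) (hp0 : ∀ x, R0 < ‖x‖ → p x = 0) {K K' : ℝ} (hB : B V p K) (hB' : B V (pd b p) K') :
    GB V b (Moll.mo ρ (fun y => a y * p y)) (2 * (T * K + T * K')) := by
  have hal : LipschitzWith (Real.toNNReal T) a := by
    refine LipschitzWith.of_dist_le_mul fun x y => ?_
    rw [Real.dist_eq, dist_eq_norm, Real.coe_toNNReal _ hT]
    exact ha x y
  have hd := hal.ae_differentiableAt (μ := (volume : Measure (E n)))
  obtain ⟨L, hL⟩ := lip_mul hp hT ha hab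
  have hpc := X162.T.cont hp
  have hpd := X162.T.pd hp b
  have c1 : B V (fun x => T * |p x|) (|T| * K) :=
    (hB.abs hV hpc.aestronglyMeasurable).const_mul hV hpc.abs.aestronglyMeasurable T
  have c2 : B V (fun x => T * |pd b p x|) (|T| * K') :=
    (hB'.abs hV (aesm_pd b _)).const_mul hV (X162.T.cont hpd).abs.aestronglyMeasurable T
  rw [abs_of_nonneg hT] at c1 c2
  have hg0 : ∀ x, R0 < ‖x‖ → T * |p x| + T * |pd b p x| = 0 := fun x hx => by
    rw [hp0 x hx, pd_zero_off hp0 b x hx]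
    simp
  refine gb_mo hK hρ hεε hL hp.2.mul_left b (g := fun x => T * |p x| + T * |pd b p x|)
    ((hpc.abs.const_mul T).add ((X162.T.cont hpd).abs.const_mul T)) (hcs_of_zero hg0) hg0 (c1.add c2) ?_
  filter_upwards [hd] with x hx
  have hnn : 0 ≤ T * |p x| + T * |pd b p x| := by positivity
  rw [pd_mul' b hx (X162.T.diff hp x), abs_of_nonneg hnn]
  have h1 : |pd b a x| ≤ T := by
    have h1 : ‖fderiv ℝ a x‖ ≤ T := by
      refine norm_fderiv_le_of_lip' ℝ hT (Eventually.of_forall fun y => ?_)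
      rw [Real.norm_eq_abs]
      exact ha y x
    exact (abs_pd_le_norm a x b).trans h1
  calc |pd b a x * p x + a x * pd b p x| ≤ |pd b a x| * |p x| + |a x| * |pd b p x| := by
        rw [← abs_mul, ← abs_mul]; exact abs_add_le _ _
    _ ≤ _ := by
        have := hab x
        gcongr

/-- fixed test function, `ε → 0` -/
theorem gb_cm_small {a G : E n → ℝ} (hV : Continuous V) (hG : Test G) {T : ℝ} (hT : 0 ≤ T)
    (ha : ∀ x y, |a x - a y| ≤ T * ‖x - y‖) (b : Fin n) {δ : ℝ} (hδ : 0 < δ) :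
    ∃ ε₀ > 0, ∀ ε, ε ≤ ε₀ → ∀ ρ, Moll.IsMol ε ρ → GB V b (cm ρ a G) δ := by
  obtain ⟨ε₀, h0, h⟩ := cm_small hV hG hT ha b hδ
  refine ⟨ε₀, h0, fun ε hε ρ hρ => ⟨?_, h ε hε ρ hρ⟩⟩
  have hal : LipschitzWith (Real.toNNReal T) a := by
    refine LipschitzWith.of_dist_le_mul fun x y => ?_
    rw [Real.dist_eq, dist_eq_norm, Real.coe_toNNReal _ hT]
    exact ha x y
  filter_upwards [hal.ae_differentiableAt (μ := (volume : Measure (E n)))] with x hx
  exact (pd_cm hρ.contDiff hρ.hcs hal.continuous (X162.T.cont hG) hx b).1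

end

/-- finitely many conditions on `ε` -/
theorem fin_eps {ι : Type*} [Fintype ι] {Qp : ι → ℝ → (E n → ℝ) → Prop}
    (h : ∀ i, ∃ ε₀ > 0, ∀ ε, ε ≤ ε₀ → ∀ ρ, Moll.IsMol ε ρ → Qp i ε ρ) :
    ∃ ε₀ > 0, ∀ ε, ε ≤ ε₀ → ∀ ρ : E n → ℝ, Moll.IsMol ε ρ → ∀ i, Qp i ε ρ := by
  choose e he h using h
  have hs : 0 ≤ ∑ i, (e i)⁻¹ := Finset.sum_nonneg fun i _ => (inv_pos.2 (he i)).le
  refine ⟨(1 + ∑ i, (e i)⁻¹)⁻¹, by positivity, fun ε hε ρ hρ i => h i ε (hε.trans ?_) ρ hρ⟩
  rw [← inv_inv (e i)]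
  refine inv_anti₀ (inv_pos.2 (he i)) ?_
  have : (e i)⁻¹ ≤ ∑ i, (e i)⁻¹ :=
    Finset.single_le_sum (f := fun i => (e i)⁻¹) (fun i _ => (inv_pos.2 (he i)).le) (Finset.mem_univ i)
  linarith

end Vale.Agent.P227.M.X162
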