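import Vale.Agent.P227.M.LIN.Moll2
import Vale.Agent.P227.M.Bas

/-! # StmtH1, independent version (helper162): weighted `L²` bounds -/

open MeasureTheory Filter Topology
open scoped ContDiff

namespace Vale.Agent.P227.M.X162

variable {n : ℕ}

/-- `g e^{-V/2}` -/
noncomputable def wt (V g : E n → ℝ) (x : E n) : ℝ := g x * Real.exp (-(V x) / 2)

/-- `g` has weighted `L²` norm at most `K` -/
structure B (V g : E n → ℝ) (K : ℝ) : Prop where
  mem : MemLp (wt V g) 2 (volume : Measure (E n))
  le : (eLpNorm (wt V g) 2 (volume : Measure (E n))).toReal ≤ K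

theorem B.nonneg {V g : E n → ℝ} {K : ℝ} (h : B V g K) : 0 ≤ K := ENNReal.toReal_nonneg.trans h.le

theorem wt_sq (V g : E n → ℝ) (x : E n) : ‖wt V g x‖ ^ 2 = g x ^ 2 * Real.exp (-V x) := by
  unfold wt
  rw [Real.norm_eq_abs, sq_abs, mul_pow, ← Real.exp_nat_mul]
  congr 2
  push_cast
  ring

theorem toReal_sq {f : E n → ℝ} (hf : MemLp f 2 (volume : Measure (E n))) :
    (eLpNorm f 2 (volume : Measure (E n))).toReal ^ 2 = Moll.nsq f := by
  rw [← Lp.norm_toLp f hf, Moll.norm_toLp hf]

theorem B.int {V g : E n → ℝ} {K : ℝ} (h : B V g K) :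
    Integrable (fun x => g x ^ 2 * Real.exp (-V x)) ∧ ∫ x, g x ^ 2 * Real.exp (-V x) ≤ K ^ 2 := by
  have h1 := Moll.memLp_norm_sq_int h.mem
  simp only [wt_sq] at h1
  refine ⟨h1, ?_⟩
  have h2 := toReal_sq h.mem
  unfold Moll.nsq at h2
  simp only [wt_sq] at h2
  rw [← h2]
  exact pow_le_pow_left₀ ENNReal.toReal_nonneg h.le 2

theorem B.of_int {V g : E n → ℝ} {K : ℝ} (hK : 0 ≤ K) (hm : MemLp (wt V g) 2 (volume : Measure (E n)))
    (h : ∫ x, g x ^ 2 * Real.exp (-V x) ≤ K ^ 2) : B V g K := by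
  refine ⟨hm, ?_⟩
  have h2 := toReal_sq hm
  unfold Moll.nsq at h2
  simp only [wt_sq] at h2
  rw [← h2] at h
  exact le_of_sq_le_sq h hK

theorem memLp_cc {V g : E n → ℝ} (hV : Continuous V) (hg : Continuous g) (hc : HasCompactSupport g) :
    MemLp (wt V g) 2 (volume : Measure (E n)) := by
  have h1 : Continuous (wt V g) := by unfold wt; fun_prop
  have h2 : HasCompactSupport (wt V g) := by
    unfold wt
    exact hc.mul_right
  exact h1.memLp_of_hasCompactSupport h2

theorem B.mono {V g : E n → ℝ} {K K' : ℝ} (h : B V g K) (hK : K ≤ K') : B V g K' := ⟨h.mem, h.le.trans hK⟩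

theorem B.congr {V g g' : E n → ℝ} {K : ℝ} (h : B V g K) (he : g =ᵐ[volume] g') : B V g' K := by
  have h1 : wt V g =ᵐ[volume] wt V g' := by
    filter_upwards [he] with x hx
    unfold wt
    rw [hx]
  exact ⟨h.mem.ae_eq h1, by rw [← eLpNorm_congr_ae h1]; exact h.le⟩

theorem B.add {V g h : E n → ℝ} {K L : ℝ} (hg : B V g K) (hh : B V h L) :
    B V (fun x => g x + h x) (K + L) := by
  have e : wt V (fun x => g x + h x) = wt V g + wt V h := by
    funext x
    simp only [wt, Pi.add_apply]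
    ring
  refine ⟨e ▸ hg.mem.add hh.mem, ?_⟩
  rw [e]
  have h1 := eLpNorm_add_le hg.mem.1 hh.mem.1 (p := 2) (by norm_num)
  calc (eLpNorm (wt V g + wt V h) 2 volume).toReal
      ≤ (eLpNorm (wt V g) 2 volume + eLpNorm (wt V h) 2 volume).toReal :=
        ENNReal.toReal_mono (ENNReal.add_ne_top.2 ⟨hg.mem.eLpNorm_ne_top, hh.mem.eLpNorm_ne_top⟩) h1
    _ = _ := ENNReal.toReal_add hg.mem.eLpNorm_ne_top hh.mem.eLpNorm_ne_top
    _ ≤ _ := add_le_add hg.le hh.le

/-- domination -/
theorem B.dom {V g h : E n → ℝ} {K c : ℝ} (hV : Continuous V) (hh : B V h K) (hc : 0 ≤ c)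
    (hg : AEStronglyMeasurable g (volume : Measure (E n))) (hle : ∀ᵐ x, |g x| ≤ c * |h x|) :
    B V g (c * K) := by
  have hm : AEStronglyMeasurable (wt V g) (volume : Measure (E n)) := by
    unfold wt
    exact hg.mul (by fun_prop : Continuous fun x => Real.exp (-(V x) / 2)).aestronglyMeasurable
  have hle' : ∀ᵐ x, ‖wt V g x‖ ≤ c * ‖wt V h x‖ := by
    filter_upwards [hle] with x hx
    unfold wt
    rw [norm_mul, norm_mul, ← mul_assoc]
    exact mul_le_mul_of_nonneg_right hx (norm_nonneg _)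
  refine ⟨hh.mem.of_le_mul hm hle', ?_⟩
  have h1 := eLpNorm_le_mul_eLpNorm_of_ae_le_mul hle' 2
  calc (eLpNorm (wt V g) 2 volume).toReal ≤ (ENNReal.ofReal c * eLpNorm (wt V h) 2 volume).toReal :=
        ENNReal.toReal_mono (ENNReal.mul_ne_top ENNReal.ofReal_ne_top hh.mem.eLpNorm_ne_top) h1
    _ = c * (eLpNorm (wt V h) 2 volume).toReal := by
        rw [ENNReal.toReal_mul, ENNReal.toReal_ofReal hc]
    _ ≤ _ := mul_le_mul_of_nonneg_left hh.le hc

theorem B.const_mul {V h : E n → ℝ} {K : ℝ} (hV : Continuous V) (hh : B V h K)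
    (hm : AEStronglyMeasurable h (volume : Measure (E n))) (c : ℝ) :
    B V (fun x => c * h x) (|c| * K) :=
  hh.dom hV (abs_nonneg c) (hm.const_mul c) (Eventually.of_forall fun x => by rw [abs_mul])

theorem B.zero (V : E n → ℝ) : B V (fun _ => 0) 0 := by
  have e : wt V (fun _ => (0:ℝ)) = 0 := by
    funext x
    simp [wt]
  exact ⟨e ▸ MemLp.zero, by rw [e]; simp⟩

theorem B.sum {ι : Type*} {V : E n → ℝ} {g : ι → E n → ℝ} {K : ι → ℝ} (s : Finset ι)
    (h : ∀ i ∈ s, B V (g i) (K i)) : B V (fun x => ∑ i ∈ s, g i x) (∑ i ∈ s, K i) := by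
  classical
  induction s using Finset.induction_on with
  | empty => simpa using B.zero V
  | insert a s ha ih =>
    simp only [Finset.sum_insert ha]
    exact (h a (Finset.mem_insert_self _ _)).add (ih fun i hi => h i (Finset.mem_insert_of_mem hi))

theorem B.abs {V g : E n → ℝ} {K : ℝ} (hV : Continuous V) (h : B V g K)
    (hm : AEStronglyMeasurable g (volume : Measure (E n))) : B V (fun x => |g x|) K := by
  have := h.dom hV zero_le_one (g := fun x => |g x|) hm.norm (Eventually.of_forall fun x => by simp)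
  simpa using this

/-- the kernel lemma -/
theorem exists_eps {V : E n → ℝ} (hV : Continuous V) (R : ℝ) :
    ∃ ε₀ > 0, ∀ κ : E n → ℝ, Continuous κ → HasCompactSupport κ → (∀ z, 0 ≤ κ z) →
      (∀ z, ε₀ ≤ ‖z‖ → κ z = 0) → ∀ g : E n → ℝ, Continuous g → HasCompactSupport g →
      (∀ x, R < ‖x‖ → g x = 0) → ∀ w : E n → ℝ, AEStronglyMeasurable w (volume : Measure (E n)) →
      (∀ᵐ x, |w x| ≤ Moll.mo κ (fun y => |g y|) x) → ∀ K, B V g K →
      B V w (2 * (∫ z, κ z) * K) := by
  have hcomp : IsCompact (Metric.closedBall (0 : E n) (R + 1)) := isCompact_closedBall _ _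
  have huc := hcomp.uniformContinuousOn_of_continuous hV.continuousOn
  obtain ⟨ε₁, hε₁, h1⟩ := Metric.uniformContinuousOn_iff.1 huc 1 one_pos
  refine ⟨min ε₁ 1, lt_min hε₁ one_pos, ?_⟩
  intro κ hκ hκc hκ0 hκs g hg hgc hgR w hw hle K hB
  obtain ⟨w', hw'⟩ : ∃ w' : E n → ℝ, w' = fun x => if |w x| ≤ Moll.mo κ (fun y => |g y|) x then w x else 0 :=
    ⟨_, rfl⟩
  have hwe : w =ᵐ[volume] w' := by
    filter_upwards [hle] with x hx
    rw [hw']
    simp [hx]
  have hw'le : ∀ x, |w' x| ≤ Moll.mo κ (fun y => |g y|) x := by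
    intro x
    rw [hw']
    by_cases hx : |w x| ≤ Moll.mo κ (fun y => |g y|) x
    · simp [hx]
    · simp only [hx, if_false, abs_zero]
      exact integral_nonneg fun y => mul_nonneg (hκ0 _) (abs_nonneg _)
  have hw'm : AEStronglyMeasurable w' (volume : Measure (E n)) := hw.congr hwe
  have hm : AEStronglyMeasurable (wt V w') (volume : Measure (E n)) := by
    unfold wt
    exact hw'm.mul (by fun_prop : Continuous fun x => Real.exp (-(V x) / 2)).aestronglyMeasurable
  have hexp : Real.exp (1 / 2) ≤ 2 := by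
    have h3 := Real.exp_one_lt_d9
    have h4 : Real.exp (1 / 2) ^ 2 = Real.exp 1 := by
      rw [← Real.exp_nat_mul]; norm_num
    nlinarith [Real.exp_pos (1 / 2)]
  have hmem2 : MemLp (fun y => 2 * wt V g y) 2 (volume : Measure (E n)) := hB.mem.const_mul 2
  have hkey : ∀ x, ‖wt V w' x‖ ≤ Moll.mo κ (fun y => ‖2 * wt V g y‖) x := by
    intro x
    have i1 : Integrable (fun y => κ (x - y) • |g y|) :=
      Moll.integrable_mo hκ hκc (hg.abs.locallyIntegrable) x
    have i2 : Integrable (fun y => κ (x - y) • ‖2 * wt V g y‖) := by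
      refine Moll.integrable_mo hκ hκc ?_ x
      have : Continuous fun y => ‖2 * wt V g y‖ := by unfold wt; fun_prop
      exact this.locallyIntegrable
    have e0 : 0 < Real.exp (-(V x) / 2) := Real.exp_pos _
    calc ‖wt V w' x‖ = |w' x| * Real.exp (-(V x) / 2) := by
          unfold wt
          rw [norm_mul, Real.norm_eq_abs, Real.norm_of_nonneg e0.le]
      _ ≤ Moll.mo κ (fun y => |g y|) x * Real.exp (-(V x) / 2) :=
          mul_le_mul_of_nonneg_right (hw'le x) e0.le
      _ = ∫ y, (κ (x - y) • |g y|) * Real.exp (-(V x) / 2) := by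
          unfold Moll.mo
          rw [integral_mul_const]
      _ ≤ ∫ y, κ (x - y) • ‖2 * wt V g y‖ := by
          refine integral_mono (i1.mul_const _) i2 fun y => ?_
          simp only [smul_eq_mul]
          by_cases hy : g y = 0
          · simp [hy, wt]
          by_cases hz : κ (x - y) = 0
          · simp [hz]
          have hyR : ‖y‖ ≤ R := by
            by_contra hcon
            exact hy (hgR y (not_le.1 hcon))
          have hxy : ‖x - y‖ < min ε₁ 1 := by
            by_contra hcon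
            exact hz (hκs _ (not_lt.1 hcon))
          have hxR : ‖x‖ ≤ R + 1 := by
            have h5 := norm_add_le (x - y) y
            rw [sub_add_cancel] at h5
            have := hxy.le.trans (min_le_right _ _)
            linarith
          have hd : dist (V x) (V y) < 1 := by
            refine h1 x (by simpa using hxR) y (by simpa using hyR.trans (by linarith)) ?_
            rw [dist_eq_norm]
            exact hxy.trans_le (min_le_left _ _)
          rw [Real.dist_eq] at hd
          have h6 := (abs_lt.1 hd).1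
          have h7 : Real.exp (-(V x) / 2) ≤ 2 * Real.exp (-(V y) / 2) := by
            calc Real.exp (-(V x) / 2) ≤ Real.exp (1 / 2 + -(V y) / 2) :=
                  Real.exp_le_exp.2 (by linarith)
              _ = Real.exp (1 / 2) * Real.exp (-(V y) / 2) := Real.exp_add _ _
              _ ≤ _ := mul_le_mul_of_nonneg_right hexp (Real.exp_pos _).le
          unfold wt
          rw [norm_mul, norm_mul, Real.norm_of_nonneg (Real.exp_pos _).le, Real.norm_eq_abs (g y)]
          have h8 : 0 ≤ κ (x - y) * |g y| := mul_nonneg (hκ0 _) (abs_nonneg _)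
          calc κ (x - y) * |g y| * Real.exp (-(V x) / 2)
              ≤ κ (x - y) * |g y| * (2 * Real.exp (-(V y) / 2)) :=
                mul_le_mul_of_nonneg_left h7 h8
            _ = _ := by
                rw [Real.norm_of_nonneg (by norm_num : (0:ℝ) ≤ 2)]
                ring
  obtain ⟨j1, j2⟩ := Moll.nsq_le_mo hκ hκc hκ0 hmem2 hm hkey
  have hκi : 0 ≤ ∫ z, κ z := integral_nonneg hκ0
  have hB' : B V w' (2 * (∫ z, κ z) * K) := by
    refine ⟨j1, le_of_sq_le_sq ?_ (by have := hB.nonneg; positivity)⟩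
    rw [toReal_sq j1]
    refine j2.trans ?_
    have e2 : Moll.nsq (fun y => 2 * wt V g y) = 4 * Moll.nsq (wt V g) := by
      unfold Moll.nsq
      rw [← integral_const_mul]
      refine integral_congr_ae (Eventually.of_forall fun y => ?_)
      simp only [norm_mul, Real.norm_of_nonneg (by norm_num : (0:ℝ) ≤ 2)]
      ring
    rw [e2, ← toReal_sq hB.mem]
    have h9 : (eLpNorm (wt V g) 2 (volume : Measure (E n))).toReal ^ 2 ≤ K ^ 2 :=
      pow_le_pow_left₀ ENNReal.toReal_nonneg hB.le 2
    nlinarith [sq_nonneg (∫ z, κ z), mul_le_mul_of_nonneg_left h9 (sq_nonneg (∫ z, κ z))]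
  exact hB'.congr hwe.symm

/-- mollification converges in the weighted norm -/
theorem mo_sub_small {V g : E n → ℝ} (hV : Continuous V) (hg : MemLp g 2 (volume : Measure (E n)))
    {R : ℝ} (hR : ∀ x, R < ‖x‖ → g x = 0) {δ : ℝ} (hδ : 0 < δ) :
    ∃ ε₀ > 0, ∀ ε, ε ≤ ε₀ → ∀ ρ, Moll.IsMol ε ρ → B V (fun x => Moll.mo ρ g x - g x) δ := by
  obtain ⟨A, hA⟩ : ∃ A : ℝ, ∀ x ∈ Metric.closedBall (0 : E n) (R + 1), |Real.exp (-(V x) / 2)| ≤ A := by
    have := (isCompact_closedBall (0 : E n) (R + 1)).exists_bound_of_continuousOn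
      (f := fun x => Real.exp (-(V x) / 2)) (by fun_prop)
    simpa using this
  obtain ⟨D, hD⟩ : ∃ D : ℝ, D = max A 1 := ⟨_, rfl⟩
  have hD1 : 0 < D := by rw [hD]; exact lt_max_of_lt_right one_pos
  obtain ⟨ε₀, hε₀, h1⟩ := Moll.mo_approx hg (show 0 < (δ / D) ^ 2 by positivity)
  refine ⟨min ε₀ 1, lt_min hε₀ one_pos, fun ε hε ρ hρ => ?_⟩
  have h2 := h1 ε (hε.trans (min_le_left _ _)) ρ hρ
  have m1 : MemLp (fun x => Moll.mo ρ g x - g x) 2 (volume : Measure (E n)) := (Moll.nsq_mo_le hρ hg).1.sub hg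
  have hz : ∀ x, R + 1 < ‖x‖ → Moll.mo ρ g x - g x = 0 := by
    intro x hx
    rw [hR x (by linarith), sub_zero]
    unfold Moll.mo
    refine integral_eq_zero_of_ae (Eventually.of_forall fun y => ?_)
    by_cases hy : R < ‖y‖
    · simp [hR y hy]
    · have h3 : ε ≤ ‖x - y‖ := by
        have h5 := norm_add_le (x - y) y
        rw [sub_add_cancel] at h5
        have h6 := hε.trans (min_le_right _ _)
        linarith [not_lt.1 hy]
      simp [hρ.supp _ h3]
  have hle : ∀ x, ‖wt V (fun x => Moll.mo ρ g x - g x) x‖ ≤ D * ‖Moll.mo ρ g x - g x‖ := by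
    intro x
    by_cases hx : R + 1 < ‖x‖
    · simp only [wt, hz x hx]
      simp
    · unfold wt
      rw [norm_mul, mul_comm]
      refine mul_le_mul_of_nonneg_right ?_ (norm_nonneg _)
      exact (hA x (by simpa using not_lt.1 hx)).trans (by rw [hD]; exact le_max_left _ _)
  have hm : AEStronglyMeasurable (wt V (fun x => Moll.mo ρ g x - g x)) (volume : Measure (E n)) := by
    unfold wt
    exact m1.1.mul (by fun_prop : Continuous fun x => Real.exp (-(V x) / 2)).aestronglyMeasurable
  refine ⟨m1.of_le_mul hm (Eventually.of_forall hle), ?_⟩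
  have h3 := eLpNorm_le_mul_eLpNorm_of_ae_le_mul (Eventually.of_forall hle) 2 (μ := (volume : Measure (E n)))
  calc (eLpNorm (wt V (fun x => Moll.mo ρ g x - g x)) 2 volume).toReal
      ≤ (ENNReal.ofReal D * eLpNorm (fun x => Moll.mo ρ g x - g x) 2 volume).toReal :=
        ENNReal.toReal_mono (ENNReal.mul_ne_top ENNReal.ofReal_ne_top m1.eLpNorm_ne_top) h3
    _ = D * (eLpNorm (fun x => Moll.mo ρ g x - g x) 2 volume).toReal := by
        rw [ENNReal.toReal_mul, ENNReal.toReal_ofReal hD1.le]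
    _ ≤ D * (δ / D) := by
        refine mul_le_mul_of_nonneg_left (le_of_sq_le_sq ?_ (by positivity)) hD1.le
        rw [toReal_sq m1]
        exact h2
    _ = δ := by field_simp

end Vale.Agent.P227.M.X162
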